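import Mathlib

/-!
Averages over functions `V → Ω`: resampling identities.
-/

open Finset
open scoped BigOperators

namespace Vale.Agent.P050

variable {V ι Ω : Type*} [Fintype V] [DecidableEq V] [Fintype ι] [Fintype Ω]

/-- Exchange the coordinates in `s` between two functions. -/
def swapOn (s : Finset V) : ((V → Ω) × (V → Ω)) ≃ ((V → Ω) × (V → Ω)) where
  toFun p := (s.piecewise p.2 p.1, s.piecewise p.1 p.2)
  invFun p := (s.piecewise p.2 p.1, s.piecewise p.1 p.2)
  left_inv p := by
    ext i <;> by_cases h : i ∈ s <;> simp [h]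
  right_inv p := by
    ext i <;> by_cases h : i ∈ s <;> simp [h]

lemma expect_resample [Nonempty Ω] (s : Finset V) (f : (V → Ω) → ℝ) :
    𝔼 x, f x = 𝔼 x, 𝔼 y, f (s.piecewise y x) := by
  have h1 : (𝔼 p : (V → Ω) × (V → Ω), f (s.piecewise p.2 p.1))
      = 𝔼 p : (V → Ω) × (V → Ω), f p.1 :=
    Fintype.expect_equiv (swapOn s) _ _ (fun p => rfl)
  have h2 : (𝔼 p : (V → Ω) × (V → Ω), f (s.piecewise p.2 p.1))
      = 𝔼 x, 𝔼 y, f (s.piecewise y x) := by
    rw [← Finset.univ_product_univ, Finset.expect_product]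
  have h3 : (𝔼 p : (V → Ω) × (V → Ω), f p.1) = 𝔼 x, f x := by
    rw [← Finset.univ_product_univ, Finset.expect_product]
    simp
  rw [← h3, ← h1, h2]

/-- `f` only looks at the coordinates in `s`. -/
def DependsOnly (s : Finset V) (f : (V → Ω) → ℝ) : Prop :=
  ∀ x y, (∀ v ∈ s, x v = y v) → f x = f y

lemma expect_mul_of_disjoint [Nonempty Ω] (s t : Finset V) (hst : Disjoint s t)
    (f g : (V → Ω) → ℝ) (hf : DependsOnly s f) (hg : DependsOnly t g) :
    𝔼 x, f x * g x = (𝔼 x, f x) * 𝔼 x, g x := by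
  rw [expect_resample s (fun x => f x * g x)]
  have h : ∀ x y : V → Ω, f (s.piecewise y x) * g (s.piecewise y x) = g x * f y := by
    intro x y
    have h1 : f (s.piecewise y x) = f y := hf _ _ (fun v hv => by simp [hv])
    have h2 : g (s.piecewise y x) = g x := hg _ _ (fun v hv => by
      simp [Finset.disjoint_right.mp hst hv])
    rw [h1, h2]; ring
  simp_rw [h, ← Finset.mul_expect, ← Finset.expect_mul]
  ring

/-- Pulling back along an injection preserves the uniform average. -/
lemma expect_comp_injective [Nonempty Ω] [DecidableEq ι] (c : ι → V)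
    (hc : Function.Injective c) (h : (ι → Ω) → ℝ) :
    𝔼 y : V → Ω, h (y ∘ c) = 𝔼 z, h z := by
  classical
  let e := Equiv.piEquivPiSubtypeProd (fun v => v ∈ Set.range c) (fun _ : V => Ω)
  let r : ({v // v ∈ Set.range c} → Ω) ≃ (ι → Ω) :=
    Equiv.arrowCongr (Equiv.ofInjective c hc).symm (Equiv.refl Ω)
  let E : (V → Ω) ≃ (ι → Ω) × ({v // ¬ v ∈ Set.range c} → Ω) :=
    e.trans (Equiv.prodCongr r (Equiv.refl _))
  have h1 : (𝔼 y : V → Ω, h (y ∘ c))
      = 𝔼 p : (ι → Ω) × ({v // ¬ v ∈ Set.range c} → Ω), h p.1 := by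
    refine Fintype.expect_equiv E _ _ (fun y => ?_)
    congr 1
  rw [h1, ← Finset.univ_product_univ, Finset.expect_product]
  simp

lemma expect_eval [Nonempty Ω] (v : V) (h : Ω → ℝ) :
    𝔼 x : V → Ω, h (x v) = 𝔼 a, h a := by
  classical
  have h1 := expect_comp_injective (ι := Unit) (fun _ => v)
    (fun _ _ _ => rfl) (fun z : Unit → Ω => h (z ()))
  rw [show (𝔼 x : V → Ω, h (x v)) = 𝔼 z : Unit → Ω, h (z ()) from h1]
  exact Fintype.expect_equiv (Equiv.funUnique Unit Ω) _ _ (fun z => rfl)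

/-- Averaging out one coordinate. -/
lemma expect_update [Nonempty Ω] (v : V) (f : (V → Ω) → ℝ) :
    𝔼 x, f x = 𝔼 x, 𝔼 a, f (Function.update x v a) := by
  rw [expect_resample {v} f]
  refine Finset.expect_congr rfl (fun x _ => ?_)
  have h : ∀ y : V → Ω, ({v} : Finset V).piecewise y x = Function.update x v (y v) := by
    intro y
    ext i
    by_cases hi : i = v
    · subst hi; simp
    · simp [hi]
  simp_rw [h]
  exact expect_eval v (fun a => f (Function.update x v a))

lemma abs_expect_le' (f : (V → Ω) → ℝ) : |𝔼 x, f x| ≤ 𝔼 x, |f x| :=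
  Finset.abs_expect_le _ _

end Vale.Agent.P050
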