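import Mathlib

/-!
Edge sets of a bounded degree graph: components and the count of attached edge sets.
-/

open Finset

namespace Vale.Agent.P050

variable {V : Type*} [DecidableEq V]

/-- The two endpoints of an edge. -/
def ends (e : V × V) : Finset V := {e.1, e.2}

/-- The vertices covered by an edge set. -/
def verts (X : Finset (V × V)) : Finset V := X.biUnion ends

/-- The edges of `X` at the vertex `v`. -/
def starAt (v : V) (X : Finset (V × V)) : Finset (V × V) := X.filter (fun e => v ∈ ends e)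

/-- `Y` is a union of components of `X`. -/
def ClosedIn (Y X : Finset (V × V)) : Prop :=
  Y ⊆ X ∧ ∀ e ∈ Y, ∀ f ∈ X \ Y, Disjoint (ends e) (ends f)

/-- Every component of `X` meets `S`. -/
def Att (S : Finset V) (X : Finset (V × V)) : Prop :=
  ∀ Y, ClosedIn Y X → Y.Nonempty → ¬ Disjoint (verts Y) S

/-- `X` is a connected edge set. -/
def Conn (X : Finset (V × V)) : Prop :=
  X.Nonempty ∧ ∀ Y, ClosedIn Y X → Y.Nonempty → Y = X

lemma mem_verts {X : Finset (V × V)} {v : V} : v ∈ verts X ↔ ∃ e ∈ X, v ∈ ends e := by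
  simp [verts]

lemma verts_mono {X Y : Finset (V × V)} (h : X ⊆ Y) : verts X ⊆ verts Y :=
  Finset.biUnion_subset_biUnion_of_subset_left _ h

lemma att_empty_iff {X : Finset (V × V)} : Att (∅ : Finset V) X → X = ∅ := by
  intro h
  by_contra hne
  exact h X ⟨Subset.refl _, by simp⟩ (nonempty_iff_ne_empty.mpr hne) (disjoint_empty_right _)

lemma Conn.att {Q F : Finset (V × V)} (hF : Conn F) (hQ : Q ⊆ F) (hQne : Q.Nonempty) :
    Att (verts Q) (F \ Q) := by
  intro Y hY hYne hd
  have hc : ClosedIn Y F := by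
    refine ⟨fun e he => (mem_sdiff.mp (hY.1 he)).1, fun e he f hf => ?_⟩
    obtain ⟨hfF, hfY⟩ := mem_sdiff.mp hf
    by_cases hfQ : f ∈ Q
    · exact Finset.disjoint_of_subset_left
        (fun z hz => mem_verts.mpr ⟨e, he, hz⟩)
        (Finset.disjoint_of_subset_right (fun z hz => mem_verts.mpr ⟨f, hfQ, hz⟩) hd)
    · exact hY.2 e he f (mem_sdiff.mpr ⟨mem_sdiff.mpr ⟨hfF, hfQ⟩, hfY⟩)
  obtain ⟨q, hq⟩ := hQne
  have hYF := hF.2 Y hc hYne
  have : q ∈ Y := hYF ▸ hQ hq
  exact (mem_sdiff.mp (hY.1 this)).2 hq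

/-- The one step of the exploration at a vertex of `S`. -/
lemma att_step {S : Finset V} {X : Finset (V × V)} (v : V) (h : Att S X) :
    Att (S.erase v ∪ (verts (starAt v X)).erase v) (X \ starAt v X) := by
  intro Y hY hYne hd
  have hYv : ∀ e ∈ Y, v ∉ ends e := by
    intro e he hv
    have := mem_sdiff.mp (hY.1 he)
    exact this.2 (mem_filter.mpr ⟨this.1, hv⟩)
  have hc : ClosedIn Y X := by
    refine ⟨fun e he => (mem_sdiff.mp (hY.1 he)).1, fun e he f hf => ?_⟩
    obtain ⟨hfX, hfY⟩ := mem_sdiff.mp hf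
    by_cases hfs : f ∈ starAt v X
    · rw [Finset.disjoint_left]
      intro z hze hzf
      by_cases hzv : z = v
      · exact hYv e he (hzv ▸ hze)
      · exact Finset.disjoint_left.mp hd (mem_verts.mpr ⟨e, he, hze⟩)
          (mem_union_right _ (mem_erase.mpr ⟨hzv, mem_verts.mpr ⟨f, hfs, hzf⟩⟩))
    · exact hY.2 e he f (mem_sdiff.mpr ⟨mem_sdiff.mpr ⟨hfX, hfs⟩, hfY⟩)
  apply h Y hc hYne
  rw [Finset.disjoint_left]
  intro z hz hzS
  have hzv : z ≠ v := by
    intro hzv
    obtain ⟨e, he, hze⟩ := mem_verts.mp hz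
    exact hYv e he (hzv ▸ hze)
  exact Finset.disjoint_left.mp hd hz (mem_union_left _ (mem_erase.mpr ⟨hzv, hzS⟩))

lemma card_verts_star_erase (v : V) (Y : Finset (V × V)) (hY : ∀ e ∈ Y, v ∈ ends e) :
    ((verts Y).erase v).card ≤ Y.card := by
  have h1 : (verts Y).erase v ⊆ Y.biUnion (fun e => (ends e).erase v) := by
    intro z hz
    obtain ⟨hzv, hz⟩ := mem_erase.mp hz
    obtain ⟨e, he, hze⟩ := mem_verts.mp hz
    exact mem_biUnion.mpr ⟨e, he, mem_erase.mpr ⟨hzv, hze⟩⟩
  refine (card_le_card h1).trans ?_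
  have h2 : ∀ e ∈ Y, ((ends e).erase v).card ≤ 1 := by
    intro e he
    rw [card_erase_of_mem (hY e he)]
    have h3 : (ends e).card ≤ 2 := card_le_two
    omega
  simpa using card_biUnion_le_card_mul Y (fun e => (ends e).erase v) 1 h2

lemma card_step (S : Finset V) (v : V) (hv : v ∈ S) (Y : Finset (V × V))
    (hY : ∀ e ∈ Y, v ∈ ends e) :
    (S.erase v ∪ (verts Y).erase v).card + 1 ≤ S.card + Y.card := by
  have h1 := card_union_le (S.erase v) ((verts Y).erase v)
  have h2 := card_verts_star_erase v Y hY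
  have h3 := card_erase_add_one hv
  omega

open Classical in
/-- The weighted number of edge sets attached to `S`. -/
theorem attached_sum_le (Δ : ℕ) {x : ℝ} (hx : 0 ≤ x) (hxΔ : x * Δ ≤ 1 / 4)
    (E : Finset (V × V)) (hdeg : ∀ v, (starAt v E).card ≤ Δ) (S : Finset V) :
    ∑ X ∈ E.powerset with Att S X, x ^ X.card ≤ (2 : ℝ) ^ S.card := by
  classical
  induction hn : 2 * E.card + S.card using Nat.strong_induction_on generalizing E S with
  | _ n ih =>
  rcases S.eq_empty_or_nonempty with rfl | ⟨v, hv⟩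
  · calc ∑ X ∈ E.powerset with Att (∅ : Finset V) X, x ^ X.card
        ≤ ∑ X ∈ ({∅} : Finset (Finset (V × V))), x ^ X.card := by
          refine sum_le_sum_of_subset_of_nonneg ?_ (fun _ _ _ => by positivity)
          intro X hX
          exact mem_singleton.mpr (att_empty_iff (mem_filter.mp hX).2)
      _ = (2 : ℝ) ^ (∅ : Finset V).card := by simp
  · let Y0 := starAt v E
    let S' : Finset (V × V) → Finset V := fun Y => S.erase v ∪ (verts Y).erase v
    have hdec : ∑ X ∈ E.powerset with Att S X, x ^ X.card ≤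
        ∑ Y ∈ Y0.powerset, ∑ X ∈ (E \ Y0).powerset with Att (S' Y) X,
          x ^ (Y.card + X.card) := by
      rw [← Finset.sum_finset_product'
        (r := (Y0.powerset ×ˢ (E \ Y0).powerset).filter (fun p => Att (S' p.1) p.2))
        (s := Y0.powerset) (t := fun Y => (E \ Y0).powerset.filter (Att (S' Y)))
        (f := fun Y X => x ^ (Y.card + X.card)) (fun p => by simp [and_assoc])]
      let φ : Finset (V × V) → Finset (V × V) × Finset (V × V) :=
        fun X => (starAt v X, X \ starAt v X)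
      have hφ : Set.InjOn φ ↑(E.powerset.filter (Att S)) := by
        intro X _ X' _ h
        have h1 : starAt v X = starAt v X' := congrArg Prod.fst h
        have h2 : X \ starAt v X = X' \ starAt v X' := congrArg Prod.snd h
        rw [← union_sdiff_of_subset (filter_subset (fun e => v ∈ ends e) X),
          ← union_sdiff_of_subset (filter_subset (fun e => v ∈ ends e) X')]
        exact congr_arg₂ (· ∪ ·) h1 h2
      calc ∑ X ∈ E.powerset with Att S X, x ^ X.card
          = ∑ p ∈ (E.powerset.filter (Att S)).image φ, x ^ (p.1.card + p.2.card) := by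
            rw [sum_image hφ]
            refine sum_congr rfl (fun X _ => ?_)
            congr 1
            have := card_sdiff_add_card_eq_card (filter_subset (fun e => v ∈ ends e) X)
            show X.card = (starAt v X).card + (X \ starAt v X).card
            unfold starAt
            omega
        _ ≤ _ := by
            refine sum_le_sum_of_subset_of_nonneg ?_ (fun _ _ _ => by positivity)
            intro p hp
            obtain ⟨X, hX, rfl⟩ := mem_image.mp hp
            obtain ⟨hXE, hatt⟩ := mem_filter.mp hX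
            rw [mem_powerset] at hXE
            refine mem_filter.mpr ⟨mem_product.mpr ⟨mem_powerset.mpr ?_, mem_powerset.mpr ?_⟩,
              att_step v hatt⟩
            · exact filter_subset_filter _ hXE
            · intro e he
              obtain ⟨he1, he2⟩ := mem_sdiff.mp he
              refine mem_sdiff.mpr ⟨hXE he1, fun h => he2 ?_⟩
              exact mem_filter.mpr ⟨he1, (mem_filter.mp h).2⟩
    refine hdec.trans ?_
    have hinner : ∀ Y ∈ Y0.powerset,
        ∑ X ∈ (E \ Y0).powerset with Att (S' Y) X, x ^ (Y.card + X.card)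
          ≤ (2 : ℝ) ^ (S.card - 1) * (2 * x) ^ Y.card := by
      intro Y hY
      rw [mem_powerset] at hY
      have hYv : ∀ e ∈ Y, v ∈ ends e := fun e he => (mem_filter.mp (hY he)).2
      have hS := card_step S v hv Y hYv
      have hY' : Y.card ≤ Y0.card := card_le_card hY
      have hE : (E \ Y0).card + Y0.card = E.card :=
        card_sdiff_add_card_eq_card (filter_subset _ _)
      have hd : ∀ w, (starAt w (E \ Y0)).card ≤ Δ := fun w =>
        (card_le_card (filter_subset_filter _ sdiff_subset)).trans (hdeg w)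
      have := ih (2 * (E \ Y0).card + (S' Y).card)
        (by simp only [S'] at *; omega) (E \ Y0) hd (S' Y) rfl
      have hp : (2 : ℝ) ^ (S' Y).card ≤ 2 ^ (S.card - 1 + Y.card) :=
        pow_le_pow_right₀ (by norm_num) (by simp only [S'] at *; omega)
      calc ∑ X ∈ (E \ Y0).powerset with Att (S' Y) X, x ^ (Y.card + X.card)
          = x ^ Y.card * ∑ X ∈ (E \ Y0).powerset with Att (S' Y) X, x ^ X.card := by
            rw [mul_sum]; exact sum_congr rfl (fun X _ => pow_add _ _ _)
        _ ≤ x ^ Y.card * 2 ^ (S.card - 1 + Y.card) :=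
            mul_le_mul_of_nonneg_left (this.trans hp) (by positivity)
        _ = _ := by rw [pow_add, mul_pow]; ring
    refine (sum_le_sum hinner).trans ?_
    rw [← mul_sum]
    have hbin : ∑ Y ∈ Y0.powerset, (2 * x) ^ Y.card = (2 * x + 1) ^ Y0.card := by
      rw [Finset.sum_pow_mul_eq_add_pow (2 * x) 1 Y0 |>.symm]
      simp
    rw [hbin]
    have h2 : (2 * x + 1) ^ Y0.card ≤ 2 := by
      calc (2 * x + 1) ^ Y0.card ≤ (2 * x + 1) ^ Δ :=
            pow_le_pow_right₀ (by linarith) (hdeg v)
        _ ≤ Real.exp (2 * x) ^ Δ :=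
            pow_le_pow_left₀ (by linarith) (Real.add_one_le_exp _) _
        _ = Real.exp (Δ * (2 * x)) := (Real.exp_nat_mul _ _).symm
        _ ≤ Real.exp (1 / 2) := Real.exp_le_exp.mpr (by linarith)
        _ ≤ 1 / (1 - 1 / 2) := Real.exp_bound_div_one_sub_of_interval (by norm_num) (by norm_num)
        _ = 2 := by norm_num
    calc (2 : ℝ) ^ (S.card - 1) * (2 * x + 1) ^ Y0.card
        ≤ 2 ^ (S.card - 1) * 2 := mul_le_mul_of_nonneg_left h2 (by positivity)
      _ = 2 ^ S.card := by
          rw [← pow_succ]; congr 1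
          have := card_pos.mpr ⟨v, hv⟩; omega

open Classical in
/-- Large attached edge sets have small weight. -/
theorem attached_tail_le (Δ : ℕ) {x y : ℝ} (hx : 0 ≤ x) (hy : 0 < y) (hy1 : y ≤ 1)
    (hxy : x / y * Δ ≤ 1 / 4) (E : Finset (V × V)) (hdeg : ∀ v, (starAt v E).card ≤ Δ)
    (S : Finset V) (j : ℕ) :
    ∑ X ∈ E.powerset with (Att S X ∧ j ≤ X.card), x ^ X.card ≤ y ^ j * (2 : ℝ) ^ S.card := by
  classical
  calc ∑ X ∈ E.powerset with (Att S X ∧ j ≤ X.card), x ^ X.card
      ≤ ∑ X ∈ E.powerset with (Att S X ∧ j ≤ X.card), y ^ j * (x / y) ^ X.card := by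
        refine sum_le_sum (fun X hX => ?_)
        have hj := (mem_filter.mp hX).2.2
        have h1 : x ^ X.card = y ^ X.card * (x / y) ^ X.card := by
          rw [← mul_pow, mul_div_cancel₀ _ hy.ne']
        rw [h1]
        exact mul_le_mul_of_nonneg_right (pow_le_pow_of_le_one hy.le hy1 hj) (by positivity)
    _ ≤ ∑ X ∈ E.powerset with Att S X, y ^ j * (x / y) ^ X.card := by
        refine sum_le_sum_of_subset_of_nonneg ?_ (fun _ _ _ => by positivity)
        intro X hX
        exact mem_filter.mpr ⟨(mem_filter.mp hX).1, (mem_filter.mp hX).2.1⟩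
    _ = y ^ j * ∑ X ∈ E.powerset with Att S X, (x / y) ^ X.card := (mul_sum _ _ _).symm
    _ ≤ y ^ j * (2 : ℝ) ^ S.card := mul_le_mul_of_nonneg_left
          (attached_sum_le Δ (by positivity) hxy E hdeg S) (by positivity)

/-- An attached edge set brings at most one new vertex per edge. -/
lemma att_card_verts {S : Finset V} {X : Finset (V × V)} (h : Att S X) :
    (verts X \ S).card ≤ X.card := by
  classical
  induction hn : 2 * X.card + S.card using Nat.strong_induction_on generalizing X S with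
  | _ n ih =>
  rcases S.eq_empty_or_nonempty with rfl | ⟨v, hv⟩
  · simp [att_empty_iff h, verts]
  · let Y := starAt v X
    have hYv : ∀ e ∈ Y, v ∈ ends e := fun e he => (mem_filter.mp he).2
    have hS := card_step S v hv Y hYv
    have hX : (X \ Y).card + Y.card = X.card := card_sdiff_add_card_eq_card (filter_subset _ _)
    have h1 := ih (2 * (X \ Y).card + (S.erase v ∪ (verts Y).erase v).card)
      (by omega) (att_step v h) rfl
    have hsub : verts X \ S ⊆ (verts (X \ Y) \ (S.erase v ∪ (verts Y).erase v)) ∪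
        (verts Y).erase v := by
      intro z hz
      obtain ⟨hz1, hz2⟩ := mem_sdiff.mp hz
      have hzv : z ≠ v := fun e => hz2 (e ▸ hv)
      by_cases hzY : z ∈ verts Y
      · exact mem_union_right _ (mem_erase.mpr ⟨hzv, hzY⟩)
      · refine mem_union_left _ (mem_sdiff.mpr ⟨?_, ?_⟩)
        · obtain ⟨e, he, hze⟩ := mem_verts.mp hz1
          refine mem_verts.mpr ⟨e, mem_sdiff.mpr ⟨he, fun heY => hzY ?_⟩, hze⟩
          exact mem_verts.mpr ⟨e, heY, hze⟩
        · simp only [mem_union, mem_erase, not_or, not_and]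
          exact ⟨fun _ => hz2, fun _ => hzY⟩
    have := card_le_card hsub
    have := card_union_le (verts (X \ Y) \ (S.erase v ∪ (verts Y).erase v)) ((verts Y).erase v)
    have := card_verts_star_erase v Y hYv
    simp only [Y] at *
    omega

open Classical in
/-- The component of `X` at the vertex `v`. -/
noncomputable def compAt (v : V) (X : Finset (V × V)) : Finset (V × V) :=
  X.filter (fun e => ∀ Y, ClosedIn Y X → starAt v X ⊆ Y → e ∈ Y)

lemma compAt_closed (v : V) (X : Finset (V × V)) : ClosedIn (compAt v X) X := by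
  classical
  refine ⟨filter_subset _ _, fun e he f hf => ?_⟩
  obtain ⟨hfX, hfK⟩ := mem_sdiff.mp hf
  have : ¬ ∀ Y, ClosedIn Y X → starAt v X ⊆ Y → f ∈ Y := fun h => hfK (mem_filter.mpr ⟨hfX, h⟩)
  push Not at this
  obtain ⟨Y, hY, hsY, hfY⟩ := this
  exact hY.2 e ((mem_filter.mp he).2 Y hY hsY) f (mem_sdiff.mpr ⟨hfX, hfY⟩)

lemma starAt_subset_compAt (v : V) (X : Finset (V × V)) : starAt v X ⊆ compAt v X := by
  classical
  intro e he
  exact mem_filter.mpr ⟨filter_subset _ _ he, fun Y _ hs => hs he⟩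

lemma compAt_conn {v : V} {X : Finset (V × V)} (hv : v ∈ verts X) : Conn (compAt v X) := by
  classical
  obtain ⟨e0, he0, hve0⟩ := mem_verts.mp hv
  have he0s : e0 ∈ starAt v X := mem_filter.mpr ⟨he0, hve0⟩
  have he0K := starAt_subset_compAt v X he0s
  have hK := compAt_closed v X
  have key : ∀ Y, ClosedIn Y (compAt v X) → e0 ∈ Y → Y = compAt v X := by
    intro Y hY he0Y
    refine Subset.antisymm hY.1 (fun f hf => ?_)
    refine (mem_filter.mp hf).2 Y ⟨hY.1.trans hK.1, fun e he g hg => ?_⟩ ?_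
    · obtain ⟨hgX, hgY⟩ := mem_sdiff.mp hg
      by_cases hgK : g ∈ compAt v X
      · exact hY.2 e he g (mem_sdiff.mpr ⟨hgK, hgY⟩)
      · exact hK.2 e (hY.1 he) g (mem_sdiff.mpr ⟨hgX, hgK⟩)
    · intro g hg
      by_contra hgY
      exact Finset.disjoint_left.mp
        (hY.2 e0 he0Y g (mem_sdiff.mpr ⟨starAt_subset_compAt v X hg, hgY⟩))
        hve0 (mem_filter.mp hg).2
  refine ⟨⟨e0, he0K⟩, fun Y hY hYne => ?_⟩
  by_cases he0Y : e0 ∈ Y
  · exact key Y hY he0Y
  · have hc : ClosedIn (compAt v X \ Y) (compAt v X) := by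
      refine ⟨sdiff_subset, fun e he f hf => ?_⟩
      obtain ⟨hfK, hfn⟩ := mem_sdiff.mp hf
      have hfY : f ∈ Y := by
        by_contra h
        exact hfn (mem_sdiff.mpr ⟨hfK, h⟩)
      exact (hY.2 f hfY e he).symm
    have h2 := key _ hc (mem_sdiff.mpr ⟨he0K, he0Y⟩)
    obtain ⟨y, hy⟩ := hYne
    have : y ∈ compAt v X \ Y := by rw [h2]; exact hY.1 hy
    exact absurd hy (mem_sdiff.mp this).2

/-- Uniqueness of the component. -/
lemma compAt_union {v : V} {K R : Finset (V × V)} (hK : Conn K) (hv : v ∈ verts K)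
    (hd : Disjoint (verts K) (verts R)) : compAt v (K ∪ R) = K := by
  classical
  have hclosed : ClosedIn K (K ∪ R) := by
    refine ⟨subset_union_left, fun e he f hf => ?_⟩
    obtain ⟨hf1, hf2⟩ := mem_sdiff.mp hf
    have hfR := (mem_union.mp hf1).resolve_left hf2
    exact Finset.disjoint_of_subset_left (fun z hz => mem_verts.mpr ⟨e, he, hz⟩)
      (Finset.disjoint_of_subset_right (fun z hz => mem_verts.mpr ⟨f, hfR, hz⟩) hd)
  have hsub : compAt v (K ∪ R) ⊆ K := by
    intro e he
    refine (mem_filter.mp he).2 K hclosed (fun f hf => ?_)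
    obtain ⟨hf1, hf2⟩ := mem_filter.mp hf
    rcases mem_union.mp hf1 with h | h
    · exact h
    · exact absurd (mem_verts.mpr ⟨f, h, hf2⟩) (Finset.disjoint_left.mp hd hv)
  refine hK.2 _ ⟨hsub, fun e he f hf => ?_⟩ ?_
  · exact (compAt_closed v _).2 e he f
      (mem_sdiff.mpr ⟨subset_union_left (mem_sdiff.mp hf).1, (mem_sdiff.mp hf).2⟩)
  · obtain ⟨e, he, hve⟩ := mem_verts.mp hv
    exact ⟨e, starAt_subset_compAt v _ (mem_filter.mpr ⟨subset_union_left he, hve⟩)⟩

lemma verts_disjoint_of_closed {Y X : Finset (V × V)} (h : ClosedIn Y X) :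
    Disjoint (verts Y) (verts (X \ Y)) := by
  rw [Finset.disjoint_left]
  intro z hz hz'
  obtain ⟨e, he, hze⟩ := mem_verts.mp hz
  obtain ⟨f, hf, hzf⟩ := mem_verts.mp hz'
  exact Finset.disjoint_left.mp (h.2 e he f hf) hze hzf

end Vale.Agent.P050
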