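import Mathlib

/-!
The cycle inequality: diagonal contractions inserted in an even alternating trace product
of a matrix never beat the plain product.
-/

open Finset Matrix
open scoped BigOperators

namespace Vale.Agent.P050

variable {Ω : Type*} [Fintype Ω] [DecidableEq Ω]

/-- `M` or its transpose, alternating. -/
def altMat (M : Matrix Ω Ω ℝ) (i : ℕ) : Matrix Ω Ω ℝ := if i % 2 = 0 then M else Mᵀ

/-- The product of the blocks `diag (d i) * altMat M i`, `i ∈ [s, s + l)`. -/
def seg (M : Matrix Ω Ω ℝ) (d : ℕ → Ω → ℝ) : ℕ → ℕ → Matrix Ω Ω ℝ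
  | _, 0 => 1
  | s, l + 1 => Matrix.diagonal (d s) * altMat M s * seg M d (s + 1) l

/-- The same product without the first diagonal. -/
def inner (M : Matrix Ω Ω ℝ) (d : ℕ → Ω → ℝ) (s : ℕ) : ℕ → Matrix Ω Ω ℝ
  | 0 => altMat M s
  | l + 1 => inner M d s l * Matrix.diagonal (d (s + l + 1)) * altMat M (s + l + 1)

lemma altMat_transpose (M : Matrix Ω Ω ℝ) (i : ℕ) : (altMat M i)ᵀ = altMat M (i + 1) := by
  unfold altMat
  rcases Nat.mod_two_eq_zero_or_one i with h | h <;> simp [Nat.add_mod, h]

lemma altMat_congr (M : Matrix Ω Ω ℝ) {i j : ℕ} (h : i % 2 = j % 2) :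
    altMat M i = altMat M j := by simp [altMat, h]

lemma altMat_transposeArg (M : Matrix Ω Ω ℝ) (i : ℕ) : altMat Mᵀ i = altMat M (i + 1) := by
  unfold altMat
  rcases Nat.mod_two_eq_zero_or_one i with h | h <;> simp [Nat.add_mod, h]

lemma seg_append (M : Matrix Ω Ω ℝ) (d : ℕ → Ω → ℝ) (s a b : ℕ) :
    seg M d s (a + b) = seg M d s a * seg M d (s + a) b := by
  induction a generalizing s with
  | zero => simp [seg]
  | succ a ih =>
    have h : a + 1 + b = (a + b) + 1 := by omega
    rw [h]
    simp only [seg, ih, Matrix.mul_assoc]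
    congr 3
    ring_nf

lemma seg_eq_inner (M : Matrix Ω Ω ℝ) (d : ℕ → Ω → ℝ) (s l : ℕ) :
    seg M d s (l + 1) = Matrix.diagonal (d s) * inner M d s l := by
  induction l with
  | zero => simp [seg, inner]
  | succ l ih =>
    rw [seg_append M d s (l + 1) 1, ih]
    simp only [seg, inner, Matrix.mul_one, Matrix.mul_assoc]
    rfl

lemma inner_succ_left (M : Matrix Ω Ω ℝ) (d : ℕ → Ω → ℝ) (s l : ℕ) :
    inner M d s (l + 1) = altMat M s * Matrix.diagonal (d (s + 1)) * inner M d (s + 1) l := by
  induction l with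
  | zero => simp [inner]
  | succ l ih =>
    show inner M d s (l + 1) * _ * _ = _
    rw [ih]
    simp only [inner, Matrix.mul_assoc]
    congr 4 <;> ring_nf

lemma inner_transpose (M : Matrix Ω Ω ℝ) (d d' : ℕ → Ω → ℝ) :
    ∀ (l r s : ℕ), (r + l + s + 1) % 2 = 0 →
      (∀ i, 1 ≤ i → i ≤ l → d' (s + i) = d (r + l + 1 - i)) →
      (inner M d r l)ᵀ = inner M d' s l := by
  intro l
  induction l with
  | zero =>
    intro r s h _
    simp only [inner, altMat_transpose]
    exact altMat_congr M (by omega)
  | succ l ih =>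
    intro r s h hd
    rw [inner_succ_left]
    simp only [Matrix.transpose_mul, Matrix.diagonal_transpose]
    rw [ih (r + 1) s (by omega) (fun i h1 h2 => by
      rw [hd i h1 (by omega)]; congr 1; omega)]
    simp only [inner, Matrix.mul_assoc, altMat_transpose]
    have e1 : d' (s + l + 1) = d (r + 1) := by
      rw [Nat.add_assoc s l 1, hd (l + 1) (by omega) le_rfl]
      congr 1
      omega
    rw [e1, altMat_congr M (show (s + l + 1) % 2 = (r + 1) % 2 by omega)]

lemma seg_shift (M : Matrix Ω Ω ℝ) (d d' : ℕ → Ω → ℝ) :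
    ∀ (l s t : ℕ), (∀ i < l, d' (t + i) = d (s + i)) →
      ∀ M' : Matrix Ω Ω ℝ, (∀ i, altMat M' (t + i) = altMat M (s + i)) →
      seg M' d' t l = seg M d s l := by
  intro l
  induction l with
  | zero => intros; rfl
  | succ l ih =>
    intro s t hd M' hM
    simp only [seg]
    rw [show d' t = d s by simpa using hd 0 (by omega),
      show altMat M' t = altMat M s by simpa using hM 0,
      ih (s + 1) (t + 1) (fun i hi => by
        have := hd (i + 1) (by omega)
        simpa [Nat.add_assoc, Nat.add_comm 1 i] using this) M' (fun i => by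
        simpa [Nat.add_assoc, Nat.add_comm 1 i] using hM (i + 1))]

lemma inner_congr (M : Matrix Ω Ω ℝ) (d d' : ℕ → Ω → ℝ) (s l : ℕ)
    (h : ∀ i, 1 ≤ i → i ≤ l → d (s + i) = d' (s + i)) :
    inner M d s l = inner M d' s l := by
  induction l with
  | zero => rfl
  | succ l ih =>
    have h1 := h (l + 1) (by omega) le_rfl
    simp only [inner, ih (fun i a b => h i a (by omega)), Nat.add_assoc, h1]

variable (n : ℕ) [NeZero n]

/-- Periodic extension of a family indexed by `Fin n`. -/
def ext' {α : Type*} (d : Fin n → α) (i : ℕ) : α := d (Fin.ofNat n i)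

/-- The value of a cyclic word. -/
def cycVal (M : Matrix Ω Ω ℝ) (d : Fin n → Ω → ℝ) : ℝ := (seg M (ext' n d) 0 n).trace

variable {n}

lemma ext'_of_lt {α : Type*} (d : Fin n → α) {i : ℕ} (h : i < n) : ext' n d i = d ⟨i, h⟩ := by
  unfold ext'
  congr 1
  ext
  simp [Nat.mod_eq_of_lt h]

lemma ext'_succ {α : Type*} (d : Fin n → α) (i : ℕ) :
    ext' n (fun j => d (j + 1)) i = ext' n d (i + 1) := by
  show d (Fin.ofNat n i + 1) = d (Fin.ofNat n (i + 1))
  congr 1
  apply Fin.ext
  simp [Fin.val_add, Nat.add_mod]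

/-- Cyclic rotation. -/
lemma cycVal_rotate (hn : n % 2 = 0) (M : Matrix Ω Ω ℝ) (d : Fin n → Ω → ℝ) :
    cycVal n Mᵀ (fun j => d (j + 1)) = cycVal n M d := by
  obtain ⟨m, hm⟩ := Nat.exists_eq_succ_of_ne_zero (NeZero.ne n)
  have h1 : seg Mᵀ (ext' n (fun j => d (j + 1))) 0 n = seg M (ext' n d) 1 n :=
    seg_shift M (ext' n d) _ n 1 0
      (fun i _ => by rw [Nat.zero_add, ext'_succ, Nat.add_comm]) _
      (fun i => by rw [Nat.zero_add, altMat_transposeArg, Nat.add_comm])
  have hper : ext' n d n = ext' n d 0 := by simp [ext']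
  have h2 : seg M (ext' n d) n 1 = seg M (ext' n d) 0 1 :=
    seg_shift M (ext' n d) _ 1 0 n
      (fun i hi => by
        have : i = 0 := by omega
        subst this; simpa using hper) _
      (fun i => altMat_congr M (by omega))
  have e1 : seg M (ext' n d) 0 n = seg M (ext' n d) 0 1 * seg M (ext' n d) 1 m :=
    (congrArg (seg M (ext' n d) 0) (show n = 1 + m by omega)).trans (seg_append _ _ 0 1 m)
  have e2 : seg M (ext' n d) 1 n = seg M (ext' n d) 1 m * seg M (ext' n d) n 1 := by
    refine (congrArg (seg M (ext' n d) 1) (show n = m + 1 by omega)).trans ?_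
    rw [seg_append]
    exact congrArg (fun q => seg M (ext' n d) 1 m * seg M (ext' n d) q 1) (by omega)
  unfold cycVal
  rw [h1, e2, h2, e1, Matrix.trace_mul_comm]

lemma abs_trace_diag_le (a b : Ω → ℝ) (ha : ∀ i, |a i| ≤ 1) (hb : ∀ i, |b i| ≤ 1)
    (X Y : Matrix Ω Ω ℝ) :
    |(Matrix.diagonal a * X * (Matrix.diagonal b * Y)).trace|
      ≤ Real.sqrt (∑ i, ∑ j, X i j ^ 2) * Real.sqrt (∑ i, ∑ j, Y i j ^ 2) := by
  have h1 : (Matrix.diagonal a * X * (Matrix.diagonal b * Y)).trace
      = ∑ p : Ω × Ω, (a p.1 * b p.2 * X p.1 p.2) * Y p.2 p.1 := by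
    rw [Fintype.sum_prod_type]
    simp only [Matrix.trace, Matrix.diag, Matrix.mul_apply, Matrix.diagonal_apply, ite_mul,
      zero_mul, Finset.sum_ite_eq, Finset.mem_univ, if_true]
    exact Finset.sum_congr rfl (fun i _ => Finset.sum_congr rfl (fun j _ => by ring))
  have h2 : (∑ p : Ω × Ω, (a p.1 * b p.2 * X p.1 p.2) ^ 2) ≤ ∑ i, ∑ j, X i j ^ 2 := by
    rw [Fintype.sum_prod_type]
    refine Finset.sum_le_sum (fun i _ => Finset.sum_le_sum (fun j _ => ?_))
    have h : (a i * b j) ^ 2 ≤ 1 := by
      rw [sq_le_one_iff_abs_le_one, abs_mul]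
      exact mul_le_one₀ (ha i) (abs_nonneg _) (hb j)
    calc (a i * b j * X i j) ^ 2 = (a i * b j) ^ 2 * X i j ^ 2 := mul_pow _ _ _
      _ ≤ 1 * X i j ^ 2 := mul_le_mul_of_nonneg_right h (sq_nonneg _)
      _ = _ := one_mul _
  have h3 : (∑ p : Ω × Ω, (Y p.2 p.1) ^ 2) = ∑ i, ∑ j, Y i j ^ 2 := by
    rw [Fintype.sum_prod_type, Finset.sum_comm]
  rw [h1, abs_le]
  constructor
  · have h := Real.sum_mul_le_sqrt_mul_sqrt Finset.univ
      (fun p : Ω × Ω => -(a p.1 * b p.2 * X p.1 p.2)) (fun p => Y p.2 p.1)
    simp only [neg_mul, Finset.sum_neg_distrib, neg_sq, h3] at h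
    nlinarith [mul_le_mul_of_nonneg_right (Real.sqrt_le_sqrt h2)
      (Real.sqrt_nonneg (∑ i, ∑ j, Y i j ^ 2))]
  · have h := Real.sum_mul_le_sqrt_mul_sqrt Finset.univ
      (fun p : Ω × Ω => (a p.1 * b p.2 * X p.1 p.2)) (fun p => Y p.2 p.1)
    simp only [h3] at h
    nlinarith [mul_le_mul_of_nonneg_right (Real.sqrt_le_sqrt h2)
      (Real.sqrt_nonneg (∑ i, ∑ j, Y i j ^ 2))]

variable (k : ℕ) [NeZero (2 * k)]

/-- Reflect the first half of a word. -/
def mirror (d : Fin (2 * k) → Ω → ℝ) : Fin (2 * k) → Ω → ℝ := fun i =>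
  if i.val = 0 ∨ i.val = k then (fun _ => 1)
  else if i.val < k then d i else ext' (2 * k) d (2 * k - i.val)

lemma cycVal_split (m : ℕ) (hm : k = m + 1) (M : Matrix Ω Ω ℝ) (d : Fin (2 * k) → Ω → ℝ) :
    cycVal (2 * k) M d = (Matrix.diagonal (ext' (2 * k) d 0) * inner M (ext' (2 * k) d) 0 m *
      (Matrix.diagonal (ext' (2 * k) d k) * inner M (ext' (2 * k) d) k m)).trace := by
  unfold cycVal
  congr 1
  rw [← seg_eq_inner, ← seg_eq_inner, ← hm]
  have h := seg_append M (ext' (2 * k) d) 0 k k
  rw [Nat.zero_add] at h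
  exact (congrArg (seg M (ext' (2 * k) d) 0) (two_mul k)).trans h

lemma cycVal_mirror (m : ℕ) (hm : k = m + 1) (M : Matrix Ω Ω ℝ) (d : Fin (2 * k) → Ω → ℝ) :
    cycVal (2 * k) M (mirror k d) = ∑ i, ∑ j, inner M (ext' (2 * k) d) 0 m i j ^ 2 := by
  rw [cycVal_split k m hm]
  have h0 : ext' (2 * k) (mirror k d) 0 = fun _ => 1 := by
    rw [ext'_of_lt _ (by omega)]; simp [mirror]
  have hk : ext' (2 * k) (mirror k d) k = fun _ => 1 := by
    rw [ext'_of_lt _ (by omega)]; simp [mirror]
  have hl : inner M (ext' (2 * k) (mirror k d)) 0 m = inner M (ext' (2 * k) d) 0 m := by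
    refine inner_congr M _ _ 0 m (fun i h1 h2 => ?_)
    rw [ext'_of_lt _ (by omega), ext'_of_lt _ (by omega)]
    simp [mirror, show ¬(i = 0 ∨ i = k) by omega, show i < k by omega]
  have hr : inner M (ext' (2 * k) (mirror k d)) k m = (inner M (ext' (2 * k) d) 0 m)ᵀ := by
    refine (inner_transpose M _ _ m 0 k (by omega) (fun i h1 h2 => ?_)).symm
    rw [ext'_of_lt _ (show k + i < 2 * k by omega)]
    simp only [mirror, show ¬(k + i = 0 ∨ k + i = k) by omega, show ¬ (k + i < k) by omega,
      if_false]
    congr 1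
    omega
  rw [h0, hk, hl, hr]
  simp [Matrix.trace, Matrix.mul_apply, sq]

lemma cycVal_one_nonneg (M : Matrix Ω Ω ℝ) : 0 ≤ cycVal (2 * k) M (fun _ _ => 1) := by
  have hk : 0 < k := by
    rcases Nat.eq_zero_or_pos k with h | h
    · exact absurd (by simp [h]) (NeZero.ne (2 * k))
    · exact h
  obtain ⟨m, hm⟩ := Nat.exists_eq_succ_of_ne_zero hk.ne'
  have : mirror k (fun (_ : Fin (2 * k)) (_ : Ω) => (1 : ℝ)) = fun _ _ => 1 := by
    funext i a
    unfold mirror ext'
    split_ifs <;> rfl
  rw [← this, cycVal_mirror k m hm]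
  positivity

lemma continuous_seg (M : Matrix Ω Ω ℝ) : ∀ l s,
    Continuous (fun d : Fin n → Ω → ℝ => seg M (ext' n d) s l) := by
  intro l
  induction l with
  | zero => intro s; exact continuous_const
  | succ l ih =>
    intro s
    simp only [seg]
    exact ((Continuous.matrix_diagonal (continuous_apply _)).matrix_mul continuous_const).matrix_mul
      (ih (s + 1))

open Classical in
/-- The number of non-trivial diagonals. -/
noncomputable def nontriv (d : Fin n → Ω → ℝ) : Finset (Fin n) :=
  Finset.univ.filter (fun i => d i ≠ fun _ => 1)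

lemma nontriv_rotate (d : Fin n → Ω → ℝ) :
    (nontriv (fun j => d (j + 1))).card = (nontriv d).card := by
  classical
  refine Finset.card_bij' (fun j _ => j + 1) (fun j _ => j - 1) ?_ ?_ ?_ ?_ <;>
    simp [nontriv]

/-- The cycle inequality. -/
theorem cycVal_le (M : Matrix Ω Ω ℝ) (d : Fin (2 * k) → Ω → ℝ) (hd : ∀ i a, |d i a| ≤ 1) :
    |cycVal (2 * k) M d| ≤ cycVal (2 * k) M (fun _ _ => 1) := by
  classical
  have hk : 0 < k := by
    rcases Nat.eq_zero_or_pos k with h | h
    · exact absurd (by simp [h]) (NeZero.ne (2 * k))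
    · exact h
  obtain ⟨m, hm⟩ := Nat.exists_eq_succ_of_ne_zero hk.ne'
  let K : Set (Fin (2 * k) → Ω → ℝ) :=
    Set.univ.pi (fun _ => Set.univ.pi (fun _ => Set.Icc (-1 : ℝ) 1))
  have hKc : IsCompact K :=
    isCompact_univ_pi (fun _ => isCompact_univ_pi (fun _ => isCompact_Icc))
  have hK : ∀ {d}, d ∈ K ↔ ∀ i a, |d i a| ≤ (1 : ℝ) := by
    intro d; simp [K, abs_le, Pi.le_def, forall_and]
  let val : Bool → (Fin (2 * k) → Ω → ℝ) → ℝ := fun b d =>
    |cycVal (2 * k) (if b then Mᵀ else M) d|
  have hcont : ∀ b, Continuous (val b) := fun b =>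
    continuous_abs.comp (continuous_seg _ _ _).matrix_trace
  have hne : K.Nonempty := ⟨fun _ _ => 1, hK.mpr (fun _ _ => by simp)⟩
  obtain ⟨d0, hd0, hmax0⟩ := hKc.exists_isMaxOn hne (hcont false).continuousOn
  obtain ⟨d1, hd1, hmax1⟩ := hKc.exists_isMaxOn hne (hcont true).continuousOn
  let T := max (val false d0) (val true d1)
  have hT : ∀ b, ∀ e ∈ K, val b e ≤ T := by
    intro b e he
    cases b
    · exact le_max_of_le_left (hmax0 he)
    · exact le_max_of_le_right (hmax1 he)
  let P : ℕ → Prop := fun N => ∃ b, ∃ e ∈ K, val b e = T ∧ (nontriv e).card = N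
  have hP : ∃ N, P N := by
    rcases max_choice (val false d0) (val true d1) with h | h
    · exact ⟨_, false, d0, hd0, h.symm, rfl⟩
    · exact ⟨_, true, d1, hd1, h.symm, rfl⟩
  have hN : Nat.find hP = 0 := by
    by_contra hpos
    obtain ⟨b, e, he, heT, heN⟩ := Nat.find_spec hP
    obtain ⟨i, hi⟩ : (nontriv e).Nonempty := card_pos.mp (by omega)
    -- rotate the non-trivial position to `0`
    have hrot : ∀ (j : ℕ) (b : Bool) (e : Fin (2 * k) → Ω → ℝ), e ∈ K → val b e = T →
        (nontriv e).card = Nat.find hP → ext' (2 * k) e j ≠ (fun _ => 1) →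
        ∃ b' : Bool, ∃ e' ∈ K, val b' e' = T ∧ (nontriv e').card = Nat.find hP ∧
          ext' (2 * k) e' 0 ≠ fun _ => 1 := by
      intro j
      induction j with
      | zero => intro b e he hT hN hne; exact ⟨b, e, he, hT, hN, hne⟩
      | succ j ih =>
        intro b e he hT hN hne
        refine ih (!b) (fun l => e (l + 1)) ?_ ?_ ((nontriv_rotate e).trans hN) ?_
        · exact hK.mpr (fun l a => hK.mp he (l + 1) a)
        · rw [← hT]
          show |cycVal (2 * k) _ _| = |cycVal (2 * k) _ _|
          rw [← cycVal_rotate (by omega) (if b then Mᵀ else M) e]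
          cases b <;> simp
        · rwa [ext'_succ]
    obtain ⟨b, e, he, heT, heN, h0⟩ := hrot i.val b e he heT heN (by
      rw [ext'_of_lt _ i.isLt]
      simpa [nontriv] using hi)
    let f : Fin (2 * k) → Ω → ℝ := fun l => ext' (2 * k) e (k + l.val)
    have hf : f ∈ K := hK.mpr (fun l a => hK.mp he _ a)
    let Mb := if b then Mᵀ else M
    let Mk := altMat Mb k
    have hfk : ∃ b' : Bool, Mk = if b' then Mᵀ else M := by
      show ∃ b' : Bool, altMat (if b then Mᵀ else M) k = if b' then Mᵀ else M
      rcases Nat.mod_two_eq_zero_or_one k with h | h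
      · exact ⟨b, by simp [altMat, h]⟩
      · exact ⟨!b, by cases b <;> simp [altMat, h]⟩
    obtain ⟨b', hb'⟩ := hfk
    have hmirK : ∀ g ∈ K, mirror k g ∈ K := by
      intro g hg
      refine hK.mpr (fun l a => ?_)
      unfold mirror
      split_ifs
      · simp
      · exact hK.mp hg l a
      · exact hK.mp hg _ a
    have hR : inner Mb (ext' (2 * k) e) k m = inner Mk (ext' (2 * k) f) 0 m := by
      have h1 := seg_shift Mb (ext' (2 * k) e) (ext' (2 * k) f) (m + 1) k 0
        (fun l hl => by rw [Nat.zero_add, ext'_of_lt _ (show l < 2 * k by omega)]) Mk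
        (fun l => by
          show altMat (altMat Mb k) (0 + l) = altMat Mb (k + l)
          rw [Nat.zero_add]
          rcases Nat.mod_two_eq_zero_or_one k with h | h
          · rw [show altMat Mb k = Mb by simp [altMat, h]]
            exact altMat_congr Mb (by omega)
          · rw [show altMat Mb k = Mbᵀ by simp [altMat, h], altMat_transposeArg]
            exact altMat_congr Mb (by omega))
      -- strip the first diagonal by making it trivial
      have key : ∀ (A : Matrix Ω Ω ℝ) (g g' : ℕ → Ω → ℝ) (s t : ℕ) (B : Matrix Ω Ω ℝ),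
          (∀ l, 1 ≤ l → l ≤ m → g (s + l) = g' (t + l)) →
          (∀ l, altMat A (s + l) = altMat B (t + l)) →
          inner A g s m = inner B g' t m := by
        intro A g g' s t B hg hA
        clear h1 hm
        induction m generalizing s t with
        | zero => simpa [inner] using hA 0
        | succ m ihm =>
          rw [inner_succ_left, inner_succ_left, hg 1 le_rfl (by omega),
            show altMat A s = altMat B t by simpa using hA 0,
            ihm (s + 1) (t + 1) (fun l h1 h2 => by
              have := hg (l + 1) (by omega) (by omega)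
              simpa [Nat.add_assoc, Nat.add_comm 1 l] using this) (fun l => by
              simpa [Nat.add_assoc, Nat.add_comm 1 l] using hA (l + 1))]
      refine key Mb _ _ k 0 Mk (fun l _ hl => ?_) (fun l => ?_)
      · rw [Nat.zero_add, ext'_of_lt _ (show l < 2 * k by omega)]
      · show altMat Mb (k + l) = altMat (altMat Mb k) (0 + l)
        rw [Nat.zero_add]
        rcases Nat.mod_two_eq_zero_or_one k with h | h
        · rw [show altMat Mb k = Mb by simp [altMat, h]]
          exact altMat_congr Mb (by omega)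
        · rw [show altMat Mb k = Mbᵀ by simp [altMat, h], altMat_transposeArg]
          exact altMat_congr Mb (by omega)
    -- Cauchy-Schwarz
    have hsplit := cycVal_split k m hm Mb e
    have hCS := abs_trace_diag_le (ext' (2 * k) e 0) (ext' (2 * k) e k)
      (fun a => hK.mp he _ a) (fun a => hK.mp he _ a)
      (inner Mb (ext' (2 * k) e) 0 m) (inner Mb (ext' (2 * k) e) k m)
    rw [← hsplit, ← cycVal_mirror k m hm Mb e, hR, ← cycVal_mirror k m hm Mk f] at hCS
    have hL1 : cycVal (2 * k) Mb (mirror k e) ≤ T := (le_abs_self _).trans (hT b _ (hmirK e he))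
    have hR1 : cycVal (2 * k) Mk (mirror k f) ≤ T := by
      rw [hb']; exact (le_abs_self _).trans (hT b' _ (hmirK f hf))
    have hL0 : 0 ≤ cycVal (2 * k) Mb (mirror k e) := by
      rw [cycVal_mirror k m hm]; positivity
    have hR0 : 0 ≤ cycVal (2 * k) Mk (mirror k f) := by
      rw [cycVal_mirror k m hm]; positivity
    have hT' : T ≤ Real.sqrt (cycVal (2 * k) Mb (mirror k e)) *
        Real.sqrt (cycVal (2 * k) Mk (mirror k f)) := heT ▸ hCS
    have hT0 : 0 ≤ T := heT ▸ abs_nonneg _
    have hsq : T * T ≤ cycVal (2 * k) Mb (mirror k e) * cycVal (2 * k) Mk (mirror k f) := by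
      have h := mul_self_le_mul_self hT0 hT'
      rw [← Real.sqrt_mul hL0, Real.mul_self_sqrt (mul_nonneg hL0 hR0)] at h
      exact h
    have hLT : val b (mirror k e) = T := by
      show |cycVal (2 * k) Mb _| = T
      rw [abs_of_nonneg hL0]
      nlinarith
    have hRT : val b' (mirror k f) = T := by
      show |cycVal (2 * k) (if b' then Mᵀ else M) _| = T
      rw [← hb', abs_of_nonneg hR0]
      nlinarith
    have hLN := Nat.find_min' hP ⟨b, _, hmirK e he, hLT, rfl⟩
    have hRN := Nat.find_min' hP ⟨b', _, hmirK f hf, hRT, rfl⟩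
    let I : (Fin (2 * k) → Ω → ℝ) → Finset ℕ := fun g =>
      (Finset.Ioo 0 k).filter (fun l => ext' (2 * k) g l ≠ fun _ => 1)
    have hcount : ∀ g, (nontriv (mirror k g)).card ≤ 2 * (I g).card := by
      intro g
      have hsub : (nontriv (mirror k g)).image Fin.val ⊆
          I g ∪ (I g).image (fun l => 2 * k - l) := by
        intro l hl
        obtain ⟨x, hx, rfl⟩ := mem_image.mp hl
        unfold nontriv at hx
        replace hx := (mem_filter.mp hx).2
        simp only [mirror] at hx
        split_ifs at hx with h1 h2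
        · exact absurd rfl hx
        · refine mem_union_left _ (mem_filter.mpr ⟨mem_Ioo.mpr ⟨by omega, h2⟩, ?_⟩)
          rwa [ext'_of_lt _ x.isLt]
        · refine mem_union_right _ (mem_image.mpr ⟨2 * k - x.val,
            mem_filter.mpr ⟨mem_Ioo.mpr ⟨by omega, by omega⟩, hx⟩, by omega⟩)
      have h := (card_le_card hsub).trans (card_union_le _ _)
      rw [card_image_of_injective _ Fin.val_injective] at h
      have := card_image_le (s := I g) (f := fun l => 2 * k - l)
      omega
    have hIJ : (I e).card + (I f).card + 1 ≤ (nontriv e).card := by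
      have hd1 : Disjoint (I e) ((I f).image (fun l => k + l)) := by
        rw [Finset.disjoint_left]
        intro l hl hl'
        obtain ⟨l', hl', rfl⟩ := mem_image.mp hl'
        have := mem_Ioo.mp (mem_filter.mp hl).1
        omega
      have hsub : insert 0 (I e ∪ (I f).image (fun l => k + l)) ⊆
          (nontriv e).image Fin.val := by
        intro l hl
        have hl2 : l < 2 * k ∧ ext' (2 * k) e l ≠ fun _ => 1 := by
          rcases mem_insert.mp hl with rfl | h
          · exact ⟨by omega, h0⟩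
          · rcases mem_union.mp h with h | h
            · have := mem_Ioo.mp (mem_filter.mp h).1
              exact ⟨by omega, (mem_filter.mp h).2⟩
            · obtain ⟨l', hl', rfl⟩ := mem_image.mp h
              have := mem_Ioo.mp (mem_filter.mp hl').1
              refine ⟨by omega, ?_⟩
              have h2 := (mem_filter.mp hl').2
              rwa [ext'_of_lt _ (show l' < 2 * k by omega)] at h2
        refine mem_image.mpr ⟨⟨l, hl2.1⟩, ?_, rfl⟩
        unfold nontriv
        refine mem_filter.mpr ⟨mem_univ _, ?_⟩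
        rw [← ext'_of_lt e hl2.1]
        exact hl2.2
      have h := card_le_card hsub
      rw [card_image_of_injective _ Fin.val_injective, card_insert_of_notMem, card_union_of_disjoint hd1,
        card_image_of_injective _ (add_right_injective k)] at h
      · omega
      · intro h
        rcases mem_union.mp h with h | h
        · have := mem_Ioo.mp (mem_filter.mp h).1
          omega
        · obtain ⟨l', hl', hl0⟩ := mem_image.mp h
          omega
    have := hcount e
    have := hcount f
    omega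
  obtain ⟨b, e, he, heT, heN⟩ := Nat.find_spec hP
  rw [hN, card_eq_zero] at heN
  have hone : e = fun _ _ => 1 := by
    funext i
    by_contra h
    have : i ∈ nontriv e := by simp [nontriv, h]
    simp [heN] at this
  have hfin : T = cycVal (2 * k) M (fun _ _ => 1) := by
    rw [← heT, hone]
    show |cycVal (2 * k) _ _| = _
    cases b
    · exact abs_of_nonneg (cycVal_one_nonneg k _)
    · simp only [if_true]
      rw [abs_of_nonneg (cycVal_one_nonneg k _)]
      have := cycVal_rotate (n := 2 * k) (by omega) M (fun _ _ => 1)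
      exact this
  exact hfin ▸ hT false d (hK.mpr hd)

end Vale.Agent.P050
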