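import Mathlib
import Vale.Agent.P050.Cycle

/-!
The cycle inequality written with averages.
-/

open Finset Matrix
open scoped BigOperators

namespace Vale.Agent.P050

variable {Ω : Type*} [Fintype Ω] [DecidableEq Ω]

lemma seg_apply_sum (M : Matrix Ω Ω ℝ) (d : ℕ → Ω → ℝ) : ∀ (l s : ℕ) (a : Ω) (g : Ω → ℝ),
    ∑ b, seg M d s l a b * g b
      = ∑ z : Fin l → Ω, (∏ i : Fin l, d (s + i) ((Fin.cons a z : Fin (l + 1) → Ω) i.castSucc) *
          altMat M (s + i) ((Fin.cons a z : Fin (l + 1) → Ω) i.castSucc) (z i)) *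
          g ((Fin.cons a z : Fin (l + 1) → Ω) (Fin.last l)) := by
  intro l
  induction l with
  | zero => intro s a g; simp [seg, Matrix.one_apply]
  | succ l ih =>
    intro s a g
    calc ∑ b, seg M d s (l + 1) a b * g b
        = ∑ c, d s a * altMat M s a c * ∑ b, seg M d (s + 1) l c b * g b := by
          have h : ∀ b, seg M d s (l + 1) a b
              = ∑ c, d s a * altMat M s a c * seg M d (s + 1) l c b := by
            intro b
            simp only [seg]
            rw [Matrix.mul_apply]
            simp only [Matrix.diagonal_mul]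
          simp only [h, Finset.mul_sum, Finset.sum_mul]
          rw [Finset.sum_comm]
          exact sum_congr rfl (fun c _ => sum_congr rfl (fun b _ => by ring))
      _ = ∑ p : Ω × (Fin l → Ω), d s a * altMat M s a p.1 *
            ((∏ i : Fin l, d (s + 1 + i) ((Fin.cons p.1 p.2 : Fin (l + 1) → Ω) i.castSucc) *
              altMat M (s + 1 + i) ((Fin.cons p.1 p.2 : Fin (l + 1) → Ω) i.castSucc) (p.2 i)) *
              g ((Fin.cons p.1 p.2 : Fin (l + 1) → Ω) (Fin.last l))) := by
          rw [Fintype.sum_prod_type]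
          simp_rw [ih, Finset.mul_sum]
      _ = _ := by
          refine Fintype.sum_equiv (Fin.consEquiv (fun _ : Fin (l + 1) => Ω)) _ _ (fun p => ?_)
          obtain ⟨c, z⟩ := p
          show _ = (∏ i : Fin (l + 1), d (s + i.val)
            ((Fin.cons a (Fin.cons c z : Fin (l + 1) → Ω) : Fin (l + 2) → Ω) i.castSucc) *
            altMat M (s + i.val)
              ((Fin.cons a (Fin.cons c z : Fin (l + 1) → Ω) : Fin (l + 2) → Ω) i.castSucc)
              ((Fin.cons c z : Fin (l + 1) → Ω) i)) *
            g ((Fin.cons a (Fin.cons c z : Fin (l + 1) → Ω) : Fin (l + 2) → Ω) (Fin.last (l + 1)))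
          rw [Fin.prod_univ_succ, ← Fin.succ_last, Fin.cons_succ]
          have h1 : ∀ i : Fin l, ((Fin.cons a (Fin.cons c z : Fin (l + 1) → Ω) :
              Fin (l + 2) → Ω) i.succ.castSucc) = (Fin.cons c z : Fin (l + 1) → Ω) i.castSucc := by
            intro i; rw [← Fin.succ_castSucc, Fin.cons_succ]
          simp only [h1, Fin.val_zero, Nat.add_zero, Fin.castSucc_zero, Fin.cons_zero,
            Fin.cons_succ, Fin.val_succ]
          have h2 : ∀ i : Fin l, s + (i.val + 1) = s + 1 + i.val := fun i => by omega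
          simp only [h2]
          ring

variable {n : ℕ} [NeZero n]

lemma cycVal_eq_sum (M : Matrix Ω Ω ℝ) (d : Fin n → Ω → ℝ) :
    cycVal n M d = ∑ z : Fin n → Ω, ∏ i : Fin n, d i (z i) * altMat M i.val (z i) (z (i + 1)) := by
  classical
  obtain ⟨m, rfl⟩ := Nat.exists_eq_succ_of_ne_zero (NeZero.ne n)
  have hlast : ∀ (a : Ω) (z : Fin (m + 1) → Ω),
      (Fin.cons a z : Fin (m + 2) → Ω) (Fin.last (m + 1)) = z (Fin.last m) := by
    intro a z; rw [← Fin.succ_last, Fin.cons_succ]
  unfold cycVal
  simp only [Matrix.trace, Matrix.diag]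
  have h1 : ∀ a, seg M (ext' (m + 1) d) 0 (m + 1) a a
      = ∑ b, seg M (ext' (m + 1) d) 0 (m + 1) a b * (if a = b then (1 : ℝ) else 0) := by
    intro a; simp
  simp only [h1, seg_apply_sum, hlast]
  rw [Finset.sum_comm]
  simp only [mul_ite, mul_one, mul_zero, Finset.sum_ite_eq', Finset.mem_univ, if_true]
  refine Fintype.sum_equiv
    (Equiv.arrowCongr (Equiv.addRight (1 : Fin (m + 1))) (Equiv.refl Ω)) _ _ (fun z => ?_)
  refine Finset.prod_congr rfl (fun i _ => ?_)
  have hz : (Fin.cons (z (Fin.last m)) z : Fin (m + 2) → Ω) i.castSucc = z (i - 1) := by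
    induction i using Fin.cases with
    | zero =>
      rw [Fin.castSucc_zero, Fin.cons_zero]
      congr 1
      rw [eq_comm, sub_eq_iff_eq_add]
      simp
    | succ j =>
      rw [← Fin.succ_castSucc, Fin.cons_succ]
      congr 1
      rw [eq_comm, sub_eq_iff_eq_add]
      simp
  simp only [Nat.zero_add, hz, ext'_of_lt d i.isLt, Fin.eta]
  simp [Equiv.arrowCongr, sub_eq_add_neg]

/-- The kernel read in the direction of travel along an alternating cycle. -/
def altKer (U : Ω → Ω → ℝ) (i : ℕ) (a b : Ω) : ℝ := if i % 2 = 0 then U a b else U b a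

lemma cycVal_eq_expect [Nonempty Ω] (U : Ω → Ω → ℝ) (d : Fin n → Ω → ℝ) :
    cycVal n (Matrix.of fun a b => U a b / Fintype.card Ω) d
      = 𝔼 z : Fin n → Ω, ∏ i : Fin n, d i (z i) * altKer U i.val (z i) (z (i + 1)) := by
  rw [cycVal_eq_sum, Fintype.expect_eq_sum_div_card, Finset.sum_div]
  refine Finset.sum_congr rfl (fun z _ => ?_)
  have h : ∀ i : Fin n, altMat (Matrix.of fun a b => U a b / (Fintype.card Ω : ℝ)) i.val (z i) (z (i + 1))
      = altKer U i.val (z i) (z (i + 1)) / Fintype.card Ω := by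
    intro i
    unfold altMat altKer
    split_ifs <;> simp
  simp only [h, Fintype.card_fun, Fintype.card_fin, Nat.cast_pow]
  simp only [mul_div_assoc', Finset.prod_div_distrib, Finset.prod_const, Finset.card_univ,
    Fintype.card_fin]

/-- Contractions on the vertices of an even cycle never beat the plain cycle average. -/
theorem cycle_expect_le [Nonempty Ω] {k : ℕ} [NeZero (2 * k)] (U : Ω → Ω → ℝ)
    (d : Fin (2 * k) → Ω → ℝ) (hd : ∀ i a, |d i a| ≤ 1) :
    |𝔼 z : Fin (2 * k) → Ω, ∏ i : Fin (2 * k), d i (z i) * altKer U i.val (z i) (z (i + 1))|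
      ≤ 𝔼 z : Fin (2 * k) → Ω, ∏ i : Fin (2 * k), altKer U i.val (z i) (z (i + 1)) := by
  have h := cycVal_le k (Matrix.of fun a b => U a b / Fintype.card Ω) d hd
  rw [cycVal_eq_expect, cycVal_eq_expect] at h
  simpa using h

end Vale.Agent.P050
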