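import Mathlib
import Vale.Agent.P050.Count

/-!
Even edge sets, cycles, girth.
-/

open Finset

namespace Vale.Agent.P050

variable {V : Type*} [DecidableEq V]

/-- The degree of `v` in the edge set `F`. -/
def edeg (F : Finset (V × V)) (v : V) : ℕ := (starAt v F).card

/-- All degrees are even. -/
def EvenSet (F : Finset (V × V)) : Prop := ∀ v, Even (edeg F v)

/-- Edges go from colour `false` to colour `true`. -/
def Oriented (col : V → Bool) (F : Finset (V × V)) : Prop :=
  ∀ e ∈ F, col e.1 = false ∧ col e.2 = true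

lemma Oriented.mono {col : V → Bool} {F G : Finset (V × V)} (h : Oriented col G) (hFG : F ⊆ G) :
    Oriented col F := fun e he => h e (hFG he)

lemma Oriented.ne {col : V → Bool} {F : Finset (V × V)} (h : Oriented col F) {e : V × V}
    (he : e ∈ F) : e.1 ≠ e.2 := by
  intro h'
  have := h e he
  rw [h'] at this
  simp [this.1] at this

lemma edeg_pos_iff {F : Finset (V × V)} {v : V} : 0 < edeg F v ↔ v ∈ verts F := by
  simp [edeg, starAt, mem_verts, Finset.card_pos, Finset.filter_nonempty_iff]

lemma edeg_eq_zero {F : Finset (V × V)} {v : V} (h : v ∉ verts F) : edeg F v = 0 := by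
  by_contra h'
  exact h (edeg_pos_iff.mp (Nat.pos_of_ne_zero h'))

lemma edeg_union {A B : Finset (V × V)} (h : Disjoint A B) (v : V) :
    edeg (A ∪ B) v = edeg A v + edeg B v := by
  unfold edeg starAt
  rw [filter_union, card_union_of_disjoint (disjoint_filter_filter h)]

lemma edeg_symmDiff_parity {A B : Finset (V × V)} (hA : EvenSet A) (v : V) :
    Even (edeg ((A \ B) ∪ (B \ A)) v) ↔ Even (edeg B v) := by
  have h1 : edeg A v = edeg (A \ B) v + edeg (A ∩ B) v := by
    rw [← edeg_union (disjoint_sdiff_inter A B)]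
    rw [sdiff_union_inter]
  have h2 : edeg B v = edeg (B \ A) v + edeg (A ∩ B) v := by
    rw [inter_comm, ← edeg_union (disjoint_sdiff_inter B A), sdiff_union_inter]
  rw [edeg_union disjoint_sdiff_sdiff]
  have h3 := hA v
  rw [h1] at h3
  rw [h2]
  simp only [Nat.even_add] at *
  tauto

lemma EvenSet.symmDiff {A B : Finset (V × V)} (hA : EvenSet A) (hB : EvenSet B) :
    EvenSet ((A \ B) ∪ (B \ A)) := fun v => (edeg_symmDiff_parity hA v).mpr (hB v)

lemma sum_edeg {col : V → Bool} {F : Finset (V × V)} (hF : Oriented col F) {s : Finset V}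
    (hs : verts F ⊆ s) : ∑ v ∈ s, edeg F v = 2 * F.card := by
  unfold edeg starAt
  simp only [card_filter]
  rw [Finset.sum_comm]
  have h : ∀ e ∈ F, (∑ v ∈ s, if v ∈ ends e then (1 : ℕ) else 0) = 2 := by
    intro e he
    rw [← card_filter]
    have : s.filter (fun v => v ∈ ends e) = ends e := by
      ext v
      simp only [mem_filter, and_iff_right_iff_imp]
      exact fun hv => hs (mem_verts.mpr ⟨e, he, hv⟩)
    rw [this]
    exact card_pair (hF.ne he)
  rw [sum_congr rfl h, sum_const, smul_eq_mul, mul_comm]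

lemma card_even_subsets (s : Finset V) (t : Finset (Finset V))
    (ht : ∀ T ∈ t, T ⊆ s ∧ Even T.card) (hs : s.Nonempty) : t.card ≤ 2 ^ (s.card - 1) := by
  obtain ⟨a, ha⟩ := hs
  have hinj : Set.InjOn (fun T : Finset V => T.erase a) (t : Set (Finset V)) := by
    intro T hT T' hT' h
    have h1 := (ht T hT).2
    have h2 := (ht T' hT').2
    have hcard := congrArg Finset.card h
    simp only at h hcard
    by_cases hTa : a ∈ T <;> by_cases hTa' : a ∈ T'
    · rw [← insert_erase hTa, ← insert_erase hTa', h]
    · rw [card_erase_of_mem hTa, erase_eq_of_notMem hTa'] at hcard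
      have := card_pos.mpr ⟨a, hTa⟩
      rw [Nat.even_iff] at h1 h2
      omega
    · rw [card_erase_of_mem hTa', erase_eq_of_notMem hTa] at hcard
      have := card_pos.mpr ⟨a, hTa'⟩
      rw [Nat.even_iff] at h1 h2
      omega
    · rwa [erase_eq_of_notMem hTa, erase_eq_of_notMem hTa'] at h
  calc t.card = (t.image (fun T => T.erase a)).card := (card_image_of_injOn hinj).symm
    _ ≤ (s.erase a).powerset.card := by
        refine card_le_card (fun U hU => ?_)
        obtain ⟨T, hT, rfl⟩ := mem_image.mp hU
        exact mem_powerset.mpr (erase_subset_erase _ (ht T hT).1)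
    _ = _ := by rw [card_powerset, card_erase_of_mem ha]

/-- Pigeonhole in the cycle space. -/
lemma exists_fiber {col : V → Bool} {F : Finset (V × V)} (hF : Oriented col F)
    (hne : F.Nonempty) (m : ℕ) (hm : m * 2 ^ ((verts F).card - 1) < 2 ^ F.card) :
    ∃ t : Finset (Finset (V × V)), m < t.card ∧ (∀ A ∈ t, A ⊆ F) ∧
      ∀ A ∈ t, ∀ B ∈ t, EvenSet ((A \ B) ∪ (B \ A)) := by
  classical
  obtain ⟨e, he⟩ := hne
  have hvne : (verts F).Nonempty := ⟨e.1, mem_verts.mpr ⟨e, he, by simp [ends]⟩⟩
  let φ : Finset (V × V) → Finset V := fun X => (verts F).filter (fun v => ¬ Even (edeg X v))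
  let T := F.powerset.image φ
  have hT : T.card ≤ 2 ^ ((verts F).card - 1) := by
    refine card_even_subsets (verts F) T (fun U hU => ?_) hvne
    obtain ⟨X, hX, rfl⟩ := mem_image.mp hU
    refine ⟨filter_subset _ _, ?_⟩
    have hsum : Even (∑ v ∈ verts F, edeg X v) :=
      ⟨X.card, by rw [sum_edeg (hF.mono (mem_powerset.mp hX)) (verts_mono (mem_powerset.mp hX))]; ring⟩
    rw [Finset.even_sum_iff_even_card_odd] at hsum
    simpa only [φ, Nat.not_even_iff_odd] using hsum
  have hTm : T.card * m < F.powerset.card := by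
    rw [card_powerset]
    calc T.card * m ≤ 2 ^ ((verts F).card - 1) * m := Nat.mul_le_mul_right m hT
      _ = m * 2 ^ ((verts F).card - 1) := mul_comm _ _
      _ < _ := hm
  obtain ⟨U, _, hU⟩ := exists_lt_card_fiber_of_mul_lt_card_of_maps_to
    (s := F.powerset) (t := T) (f := φ) (fun X hX => mem_image_of_mem φ hX) (n := m) hTm
  refine ⟨F.powerset.filter (fun X => φ X = U), hU, fun A hA => ?_, fun A hA B hB => ?_⟩
  · exact mem_powerset.mp (mem_filter.mp hA).1
  · intro v
    obtain ⟨hAF, hAU⟩ := mem_filter.mp hA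
    obtain ⟨hBF, hBU⟩ := mem_filter.mp hB
    by_cases hv : v ∈ verts F
    · have hiff : Even (edeg A v) ↔ Even (edeg B v) := by
        have : v ∈ φ A ↔ v ∈ φ B := by rw [hAU, hBU]
        simp only [φ, mem_filter, hv, true_and] at this
        tauto
      have h1 : edeg A v = edeg (A \ B) v + edeg (A ∩ B) v := by
        rw [← edeg_union (disjoint_sdiff_inter A B), sdiff_union_inter]
      have h2 : edeg B v = edeg (B \ A) v + edeg (A ∩ B) v := by
        rw [inter_comm, ← edeg_union (disjoint_sdiff_inter B A), sdiff_union_inter]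
      rw [edeg_union disjoint_sdiff_sdiff]
      rw [h1, h2] at hiff
      simp only [Nat.even_add] at *
      tauto
    · have : v ∉ verts ((A \ B) ∪ (B \ A)) := by
        intro h
        refine hv (verts_mono ?_ h)
        exact union_subset (sdiff_subset.trans (mem_powerset.mp hAF))
          (sdiff_subset.trans (mem_powerset.mp hBF))
      rw [edeg_eq_zero this]
      exact ⟨0, rfl⟩

/-- A shortest non-empty even subset. -/
lemma exists_shortest {col : V → Bool} {F : Finset (V × V)} (hF : Oriented col F)
    (hne : F.Nonempty) (h : (verts F).card ≤ F.card) :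
    ∃ C ⊆ F, EvenSet C ∧ C.Nonempty ∧ ∀ B ⊆ F, EvenSet B → B.Nonempty → C.card ≤ B.card := by
  classical
  obtain ⟨e, he⟩ := hne
  have hvpos : 0 < (verts F).card := card_pos.mpr ⟨e.1, mem_verts.mpr ⟨e, he, by simp [ends]⟩⟩
  obtain ⟨t, ht, htF, hte⟩ := exists_fiber hF ⟨e, he⟩ 1 (by
    rw [one_mul]; exact Nat.pow_lt_pow_right (by norm_num) (by omega))
  obtain ⟨A, hA, B, hB, hAB⟩ := one_lt_card.mp ht
  let S := F.powerset.filter (fun B => EvenSet B ∧ B.Nonempty)
  have hS : S.Nonempty := by
    refine ⟨(A \ B) ∪ (B \ A), mem_filter.mpr ⟨mem_powerset.mpr ?_, hte A hA B hB, ?_⟩⟩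
    · exact union_subset (sdiff_subset.trans (htF A hA)) (sdiff_subset.trans (htF B hB))
    · rw [nonempty_iff_ne_empty]
      intro h0
      rw [union_eq_empty, sdiff_eq_empty_iff_subset, sdiff_eq_empty_iff_subset] at h0
      exact hAB (Subset.antisymm h0.1 h0.2)
  obtain ⟨C, hC, hmin⟩ := exists_min_image S Finset.card hS
  obtain ⟨hCF, hCe, hCne⟩ := mem_filter.mp hC
  exact ⟨C, mem_powerset.mp hCF, hCe, hCne, fun B hBF hBe hBne =>
    hmin B (mem_filter.mpr ⟨mem_powerset.mpr hBF, hBe, hBne⟩)⟩

/-- With one more edge, half a girth of edges lies outside a shortest even subset. -/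
lemma half_outside {col : V → Bool} {F C : Finset (V × V)} (hF : Oriented col F)
    (hne : F.Nonempty) (h : (verts F).card < F.card) (hCF : C ⊆ F) (hCe : EvenSet C)
    (hmin : ∀ B ⊆ F, EvenSet B → B.Nonempty → C.card ≤ B.card) :
    C.card ≤ 2 * (F \ C).card := by
  classical
  obtain ⟨t, ht, htF, hte⟩ := exists_fiber hF hne 2 (by
    obtain ⟨e, he⟩ := hne
    have hvpos : 0 < (verts F).card := card_pos.mpr ⟨e.1, mem_verts.mpr ⟨e, he, by simp [ends]⟩⟩
    calc 2 * 2 ^ ((verts F).card - 1) = 2 ^ ((verts F).card - 1 + 1) := by rw [pow_succ]; ring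
      _ < _ := Nat.pow_lt_pow_right (by norm_num) (by omega))
  obtain ⟨A, B, D, hA, hB, hD, hAB, hAD, hBD⟩ := two_lt_card_iff.mp ht
  let P := fun X => (A \ X) ∪ (X \ A)
  have hP : ∃ X ∈ t, X ≠ A ∧ P X ≠ C := by
    by_contra hcon
    push Not at hcon
    have h1 := hcon B hB hAB.symm
    have h2 := hcon D hD hAD.symm
    apply hBD
    ext e
    have : e ∈ P B ↔ e ∈ P D := by rw [h1, h2]
    simp only [P, mem_union, mem_sdiff] at this
    tauto
  obtain ⟨X, hX, hXA, hXC⟩ := hP
  have hPF : P X ⊆ F := union_subset (sdiff_subset.trans (htF A hA)) (sdiff_subset.trans (htF X hX))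
  have hPne : (P X).Nonempty := by
    rw [nonempty_iff_ne_empty]
    intro h0
    simp only [P, union_eq_empty, sdiff_eq_empty_iff_subset] at h0
    exact hXA (Subset.antisymm h0.2 h0.1)
  have hPe := hte A hA X hX
  have h1 := hmin _ hPF hPe hPne
  have h2 := hmin ((C \ P X) ∪ (P X \ C))
    (union_subset (sdiff_subset.trans hCF) (sdiff_subset.trans hPF)) (hCe.symmDiff hPe) (by
      rw [nonempty_iff_ne_empty]
      intro h0
      rw [union_eq_empty, sdiff_eq_empty_iff_subset, sdiff_eq_empty_iff_subset] at h0
      exact hXC (Subset.antisymm h0.2 h0.1))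
  have h3 := card_union_le (C \ P X) (P X \ C)
  have h4 := card_sdiff_add_card_inter C (P X)
  have h5 := card_sdiff_add_card_inter (P X) C
  rw [inter_comm] at h5
  have h6 : (P X \ C).card ≤ (F \ C).card := card_le_card (sdiff_subset_sdiff hPF (Subset.refl _))
  have h7 := card_union_of_disjoint (disjoint_sdiff_sdiff (x := C) (y := P X))
  omega

/-- The edge between two vertices, oriented by the colour of the first. -/
def oedge (col : V → Bool) (a b : V) : V × V := if col a = false then (a, b) else (b, a)

lemma ends_oedge (col : V → Bool) (a b : V) : ends (oedge col a b) = {a, b} := by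
  unfold oedge ends
  split_ifs
  · rfl
  · exact pair_comm _ _

/-- The data of a cycle running through an edge set. -/
structure CycleData (col : V → Bool) (C : Finset (V × V)) where
  k : ℕ
  hk : 2 ≤ k
  c : Fin (2 * k) → V
  inj : Function.Injective c
  hcol : ∀ i : Fin (2 * k), col (c i) = decide (i.val % 2 = 1)
  hC : C = Finset.univ.image (fun i : Fin (2 * k) => oedge col (c i) (c (finRotate _ i)))
  hcard : C.card = 2 * k

lemma cycle_edge_inj {col : V → Bool} {n : ℕ} [NeZero n] (hn : 3 ≤ n) {c : Fin n → V}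
    (hc : Function.Injective c) :
    Function.Injective (fun i : Fin n => oedge col (c i) (c (i + 1))) := by
  intro i j h
  have h' := congrArg ends h
  simp only [ends_oedge] at h'
  have hi : c i ∈ ({c j, c (j + 1)} : Finset V) := h' ▸ mem_insert_self _ _
  simp only [mem_insert, mem_singleton] at hi
  rcases hi with hi | hi
  · exact hc hi
  · have hj : c j ∈ ({c i, c (i + 1)} : Finset V) := h' ▸ mem_insert_self _ _
    simp only [mem_insert, mem_singleton] at hj
    rcases hj with hj | hj
    · exact (hc hj).symm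
    · exfalso
      have e1 := hc hi
      have e2 := hc hj
      rw [e2, add_assoc, left_eq_add] at e1
      have := congrArg Fin.val e1
      simp [Fin.val_add, Nat.mod_eq_of_lt (show 2 < n by omega),
        Nat.mod_eq_of_lt (show 1 < n by omega)] at this

lemma cycle_even {col : V → Bool} {n : ℕ} [NeZero n] (hn : 3 ≤ n) {c : Fin n → V}
    (hc : Function.Injective c) :
    EvenSet (Finset.univ.image (fun i : Fin n => oedge col (c i) (c (i + 1)))) := by
  classical
  intro v
  by_cases hv : ∃ t, c t = v
  · obtain ⟨t, rfl⟩ := hv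
    have h : starAt (c t) (Finset.univ.image (fun i : Fin n => oedge col (c i) (c (i + 1))))
        = ({t - 1, t} : Finset (Fin n)).image (fun i => oedge col (c i) (c (i + 1))) := by
      ext e
      simp only [starAt, mem_filter, mem_image, mem_univ, true_and, mem_insert, mem_singleton]
      constructor
      · rintro ⟨⟨i, rfl⟩, hi⟩
        refine ⟨i, ?_, rfl⟩
        rw [ends_oedge, mem_insert, mem_singleton] at hi
        rcases hi with hi | hi
        · exact Or.inr (hc hi).symm
        · exact Or.inl (by rw [hc hi]; simp)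
      · rintro ⟨i, hi, rfl⟩
        refine ⟨⟨i, rfl⟩, ?_⟩
        rw [ends_oedge]
        rcases hi with rfl | rfl <;> simp
    unfold edeg
    rw [h, card_image_of_injective _ (cycle_edge_inj hn hc), card_pair]
    · exact ⟨1, rfl⟩
    · intro h'
      rw [sub_eq_self] at h'
      have := congrArg Fin.val h'
      simp [Nat.mod_eq_of_lt (show 1 < n by omega)] at this
  · rw [edeg_eq_zero]
    · exact ⟨0, rfl⟩
    · intro h
      obtain ⟨e, he, hve⟩ := mem_verts.mp h
      obtain ⟨i, _, rfl⟩ := mem_image.mp he
      rw [ends_oedge, mem_insert, mem_singleton] at hve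
      rcases hve with rfl | rfl <;> exact hv ⟨_, rfl⟩

/-- A minimal even set is a cycle. -/
theorem exists_cycleData [Fintype V] {col : V → Bool} {C : Finset (V × V)} (hor : Oriented col C)
    (hCe : EvenSet C) (hne : C.Nonempty)
    (hmin : ∀ B ⊆ C, EvenSet B → B.Nonempty → C.card ≤ B.card) :
    Nonempty (CycleData col C) := by
  classical
  have hadj : ∀ a b : V, ((a, b) ∈ C ∨ (b, a) ∈ C) → col b = !col a ∧ oedge col a b ∈ C := by
    rintro a b (h | h)
    · have := hor _ h; simp_all [oedge]
    · have := hor _ h; simp_all [oedge]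
  have hstep : ∀ a b : V, ((a, b) ∈ C ∨ (b, a) ∈ C) →
      ∃ z, ((b, z) ∈ C ∨ (z, b) ∈ C) ∧ z ≠ a := by
    intro a b hab
    have hpos : 0 < edeg C b := by
      refine edeg_pos_iff.mpr ?_
      rcases hab with h | h <;> exact mem_verts.mpr ⟨_, h, by simp [ends]⟩
    obtain ⟨r, hr⟩ := hCe b
    have h2 : 1 < (starAt b C).card := by
      have : edeg C b = (starAt b C).card := rfl
      omega
    obtain ⟨f, hf, hf'⟩ := exists_mem_ne h2 (oedge col a b)
    obtain ⟨hfC, hfb⟩ := mem_filter.mp hf
    rw [show ends f = {f.1, f.2} from rfl, mem_insert, mem_singleton] at hfb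
    have hor' := hor f hfC
    rcases hfb with h | h
    · refine ⟨f.2, Or.inl (by rw [h]; exact hfC), fun hz => hf' ?_⟩
      have : col a = true := hz ▸ hor'.2
      rw [oedge, if_neg (by simp [this]), ← hz, h]
    · refine ⟨f.1, Or.inr (by rw [h]; exact hfC), fun hz => hf' ?_⟩
      have : col a = false := hz ▸ hor'.1
      rw [oedge, if_pos this, ← hz, h]
  choose! nxt hnxt hback using hstep
  obtain ⟨e0, he0⟩ := hne
  let st : ℕ → V × V := fun i => (fun p : V × V => (p.2, nxt p.1 p.2))^[i] e0
  have hst : ∀ i, (((st i).1, (st i).2) ∈ C ∨ ((st i).2, (st i).1) ∈ C) := by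
    intro i
    induction i with
    | zero => exact Or.inl he0
    | succ i ih =>
      simp only [st, Function.iterate_succ_apply'] at *
      exact hnxt _ _ ih
  let v : ℕ → V := fun i => (st i).1
  have hv1 : ∀ i, (st i).2 = v (i + 1) := by
    intro i; simp only [v, st, Function.iterate_succ_apply']
  have hedge : ∀ i, ((v i, v (i + 1)) ∈ C ∨ (v (i + 1), v i) ∈ C) := by
    intro i; rw [← hv1]; exact hst i
  have hv2 : ∀ i, v (i + 2) ≠ v i := by
    intro i
    have : v (i + 2) = nxt (st i).1 (st i).2 := by
      show (st (i + 1 + 1)).1 = _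
      simp only [st, Function.iterate_succ_apply']
    rw [this]
    exact hback _ _ (hst i)
  have hcolv : ∀ i j, col (v (i + j)) = if j % 2 = 0 then col (v i) else !col (v i) := by
    intro i j
    induction j with
    | zero => simp
    | succ j ih =>
      rw [← Nat.add_assoc, (hadj _ _ (hedge (i + j))).1, ih]
      rcases Nat.mod_two_eq_zero_or_one j with h | h <;> simp [Nat.add_mod, h]
  have hrep : ∃ d, 0 < d ∧ ∃ i, v (i + d) = v i := by
    obtain ⟨i, j, hij, h⟩ := Finite.exists_ne_map_eq_of_infinite v
    rcases Nat.lt_or_gt_of_ne hij with hlt | hlt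
    · exact ⟨j - i, by omega, i, by rw [show i + (j - i) = j by omega]; exact h.symm⟩
    · exact ⟨i - j, by omega, j, by rw [show j + (i - j) = i by omega]; exact h⟩
  obtain ⟨n, hn'⟩ : ∃ n, Nat.find hrep = n := ⟨_, rfl⟩
  obtain ⟨hnpos, i0, hi0⟩ := Nat.find_spec hrep
  rw [hn'] at hnpos hi0
  have hne1 : n ≠ 1 := by
    intro h
    have h1 : v (i0 + 1) = v i0 := by simpa [h] using hi0
    have := (hadj _ _ (hedge i0)).1
    rw [h1] at this
    simp at this
  have hne2 : n ≠ 2 := fun h => hv2 i0 (by simpa [h] using hi0)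
  have hn3 : 3 ≤ n := by omega
  have heven : n % 2 = 0 := by
    rcases Nat.mod_two_eq_zero_or_one n with h | h
    · exact h
    · have := hcolv i0 n
      rw [hi0] at this
      simp [h] at this
  have hinj : ∀ a b, a < n → b < n → v (i0 + a) = v (i0 + b) → a = b := by
    intro a b ha hb h
    by_contra hne
    rcases Nat.lt_or_gt_of_ne hne with hlt | hlt
    · exact Nat.find_min hrep (m := b - a) (by rw [hn']; omega)
        ⟨by omega, i0 + a, by rw [show i0 + a + (b - a) = i0 + b by omega]; exact h.symm⟩
    · exact Nat.find_min hrep (m := a - b) (by rw [hn']; omega)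
        ⟨by omega, i0 + b, by rw [show i0 + b + (a - b) = i0 + a by omega]; exact h⟩
  obtain ⟨k, hk⟩ : ∃ k, n = 2 * k := ⟨n / 2, by omega⟩
  have : NeZero (2 * k) := ⟨by omega⟩
  -- shift the start to the colour `false`
  let s : ℕ := if col (v i0) = false then 0 else 1
  let c : Fin (2 * k) → V := fun t => v (i0 + (t.val + s) % n)
  have hs : s < 2 := by simp only [s]; split_ifs <;> omega
  have hcinj : Function.Injective c := by
    intro a b h
    have := hinj _ _ (Nat.mod_lt _ hnpos) (Nat.mod_lt _ hnpos) h
    apply Fin.ext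
    have ha := a.isLt
    have hb := b.isLt
    rcases (show a.val + s < n ∨ a.val + s = n by omega) with ha' | ha' <;>
      rcases (show b.val + s < n ∨ b.val + s = n by omega) with hb' | hb' <;>
      simp [ha', hb', Nat.mod_eq_of_lt] at this <;> omega
  have hmem : ∀ t : Fin (2 * k), oedge col (c t) (c (t + 1)) ∈ C := by
    intro t
    have hnext : c (t + 1) = v (i0 + ((t.val + s) % n + 1)) := by
      have hval : ((t + 1 : Fin (2 * k)).val + s) % n = ((t.val + s) % n + 1) % n := by
        rw [Fin.val_add, hk]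
        simp [Nat.mod_add_mod, Nat.add_mod_mod, Nat.add_right_comm]
      show v (i0 + _) = _
      rw [hval]
      have hlt := Nat.mod_lt (t.val + s) hnpos
      rcases Nat.lt_or_ge ((t.val + s) % n + 1) n with h | h
      · rw [Nat.mod_eq_of_lt h]
      · have he : (t.val + s) % n + 1 = n := by omega
        rw [he, Nat.mod_self, Nat.add_zero]
        exact hi0.symm
    rw [hnext]
    exact (hadj _ _ (hedge (i0 + (t.val + s) % n))).2
  have himg : C = Finset.univ.image (fun t : Fin (2 * k) => oedge col (c t) (c (t + 1))) := by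
    have hsub : Finset.univ.image (fun t : Fin (2 * k) => oedge col (c t) (c (t + 1))) ⊆ C := by
      intro e he
      obtain ⟨t, _, rfl⟩ := mem_image.mp he
      exact hmem t
    refine (eq_of_subset_of_card_le hsub (hmin _ hsub (cycle_even (by omega) hcinj) ?_)).symm
    exact ⟨_, mem_image_of_mem _ (mem_univ 0)⟩
  refine ⟨⟨k, by omega, c, hcinj, fun t => ?_, ?_, ?_⟩⟩
  · show col (v (i0 + (t.val + s) % n)) = _
    have hpar : (t.val + s) % n % 2 = (t.val + s) % 2 :=
      Nat.mod_mod_of_dvd _ ⟨k, hk⟩
    rw [hcolv, hpar]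
    simp only [s]
    rcases Nat.mod_two_eq_zero_or_one t.val with h | h <;>
      rcases Bool.eq_false_or_eq_true (col (v i0)) with hcb | hcb <;> simp [h, hcb, Nat.add_mod]
  · convert himg using 3
    simp [finRotate_apply]
  · rw [himg, card_image_of_injective _ (cycle_edge_inj (by omega) hcinj), card_univ, Fintype.card_fin]

lemma CycleData.neZero {col : V → Bool} {C : Finset (V × V)} (D : CycleData col C) :
    NeZero (2 * D.k) := ⟨by have := D.hk; omega⟩

open Fin.NatCast in
/-- A shortest even set has no chords. -/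
theorem chordless {col : V → Bool} {F C : Finset (V × V)} (hF : Oriented col F) (hCF : C ⊆ F)
    (hmin : ∀ B ⊆ F, EvenSet B → B.Nonempty → C.card ≤ B.card) (D : CycleData col C)
    {f : V × V} (hf : f ∈ F) (hfC : f ∉ C) :
    ¬ ((∃ i, D.c i = f.1) ∧ (∃ j, D.c j = f.2)) := by
  classical
  rintro ⟨⟨i, hi⟩, ⟨j, hj⟩⟩
  have := D.neZero
  have hk := D.hk
  have hn : 3 ≤ 2 * D.k := by omega
  let eg := fun t : Fin (2 * D.k) => oedge col (D.c t) (D.c (t + 1))
  have hC : C = Finset.univ.image eg := by
    refine D.hC.trans (image_congr (fun t _ => ?_))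
    simp [eg, finRotate_apply]
  have hinj : Function.Injective eg := cycle_edge_inj hn D.inj
  have hCe : EvenSet C := hC ▸ cycle_even hn D.inj
  have harc : ∀ (a : Fin (2 * D.k)) (m : ℕ), m ≤ 2 * D.k → ∀ v,
      (edeg ((range m).image (fun t : ℕ => eg (a + (t : Fin (2 * D.k))))) v : ZMod 2)
        = (if v = D.c a then 1 else 0) + (if v = D.c (a + (m : Fin (2 * D.k))) then 1 else 0) := by
    intro a m
    induction m with
    | zero =>
      intro _ v
      simp [edeg, starAt]
      split_ifs <;> decide
    | succ m ih =>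
      intro hm v
      rw [range_add_one, image_insert]
      have hnew : eg (a + (m : Fin (2 * D.k))) ∉
          (range m).image (fun t : ℕ => eg (a + (t : Fin (2 * D.k)))) := by
        intro h
        obtain ⟨t, ht, h⟩ := mem_image.mp h
        have := congrArg Fin.val (add_left_cancel (hinj h))
        have ht' := mem_range.mp ht
        simp [Nat.mod_eq_of_lt (show t < 2 * D.k by omega),
          Nat.mod_eq_of_lt (show m < 2 * D.k by omega)] at this
        omega
      have hsplit : ∀ (f : V × V) (A : Finset (V × V)), f ∉ A →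
          (edeg (insert f A) v : ZMod 2) = (if v ∈ ends f then 1 else 0) + (edeg A v : ZMod 2) := by
        intro f A hfA
        unfold edeg starAt
        rw [filter_insert]
        split_ifs with h
        · rw [card_insert_of_notMem (fun h' => hfA (mem_filter.mp h').1)]
          push_cast; ring
        · simp
      rw [hsplit _ _ hnew, ih (by omega) v]
      simp only [eg, ends_oedge, mem_insert, mem_singleton, Nat.cast_succ, ← add_assoc]
      have hdiff : D.c (a + (m : Fin (2 * D.k))) ≠ D.c (a + (m : Fin (2 * D.k)) + 1) := by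
        intro h
        have := congrArg Fin.val (left_eq_add.mp (D.inj h))
        simp [Nat.mod_eq_of_lt (show 1 < 2 * D.k by omega)] at this
      by_cases h1 : v = D.c (a + (m : Fin (2 * D.k)))
      · subst h1
        simp only [true_or, if_true, if_neg hdiff]
        split_ifs <;> decide
      · simp only [h1, false_or, if_false]
        ring
  let m := (j - i).val
  let A := (range m).image (fun t : ℕ => eg (i + (t : Fin (2 * D.k))))
  have hm : m < 2 * D.k := (j - i).isLt
  have hAC : A ⊆ C := by
    intro e he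
    obtain ⟨t, _, rfl⟩ := mem_image.mp he
    exact (Finset.ext_iff.mp hC _).mpr (mem_image_of_mem eg (mem_univ _))
  have hAcard : A.card = m := by
    rw [card_image_of_injOn, card_range]
    intro s hs t ht h
    have := congrArg Fin.val (add_left_cancel (hinj h))
    simp only [Finset.coe_range, Set.mem_Iio] at hs ht
    simp [Nat.mod_eq_of_lt (show s < 2 * D.k by omega),
      Nat.mod_eq_of_lt (show t < 2 * D.k by omega)] at this
    exact this
  have hA : ∀ v, (edeg A v : ZMod 2) = if v ∈ ends f then 1 else 0 := by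
    intro v
    have h := harc i m hm.le v
    rw [show i + (m : Fin (2 * D.k)) = j by simp [m], hi, hj] at h
    rw [h]
    have hfne := hF.ne hf
    by_cases h1 : v = f.1
    · subst h1; simp [ends, hfne]
    · simp [ends, h1]
  have hfdeg : ∀ (B : Finset (V × V)) v, f ∉ B →
      (edeg (insert f B) v : ZMod 2) = (if v ∈ ends f then 1 else 0) + (edeg B v : ZMod 2) := by
    intro B v hfB
    unfold edeg starAt
    rw [filter_insert]
    split_ifs with h
    · rw [card_insert_of_notMem (fun h' => hfB (mem_filter.mp h').1)]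
      push_cast; ring
    · simp
  have hev : ∀ B : Finset (V × V), (∀ v, (edeg B v : ZMod 2) = 0) → EvenSet B :=
    fun B h v => ZMod.natCast_eq_zero_iff_even.mp (h v)
  have h1 := hmin (insert f A) (insert_subset hf (hAC.trans hCF)) (hev _ (fun v => by
    rw [hfdeg A v (fun h => hfC (hAC h)), hA]; split_ifs <;> decide)) (insert_nonempty _ _)
  have h2 := hmin (insert f (C \ A)) (insert_subset hf (sdiff_subset.trans hCF)) (hev _ (fun v => by
    rw [hfdeg _ v (fun h => hfC (mem_sdiff.mp h).1)]
    have hs : (edeg C v : ZMod 2) = (edeg (C \ A) v : ZMod 2) + (edeg A v : ZMod 2) := by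
      rw [← Nat.cast_add, ← edeg_union sdiff_disjoint, sdiff_union_of_subset hAC]
    rw [ZMod.natCast_eq_zero_iff_even.mpr (hCe v), hA] at hs
    rw [add_comm]; exact hs.symm)) (insert_nonempty _ _)
  rw [card_insert_of_notMem (fun h => hfC (hAC h)), hAcard, D.hcard] at h1
  rw [card_insert_of_notMem (fun h => hfC (mem_sdiff.mp h).1), D.hcard,
    card_sdiff_of_subset hAC, hAcard, D.hcard] at h2
  omega

end Vale.Agent.P050
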