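import Mathlib
import Vale.Agent.P050.Avg
import Vale.Agent.P050.Count
import Vale.Agent.P050.Even
import Vale.Agent.P050.CycleSum

/-!
Expansion weights of edge sets and the bounds on them.
-/

open Finset
open scoped BigOperators

set_option linter.unusedSectionVars false

namespace Vale.Agent.P050

variable {V Ω : Type*} [Fintype V] [DecidableEq V] [Fintype Ω] [DecidableEq Ω] [Nonempty Ω]

/-- The weight of an edge set. -/
noncomputable def wt (U : Ω → Ω → ℝ) (F : Finset (V × V)) : ℝ :=
  𝔼 x : V → Ω, ∏ e ∈ F, U (x e.1) (x e.2)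

/-- The marginal seen from the end opposite to a leaf of colour `b`. -/
noncomputable def dl (U : Ω → Ω → ℝ) (b : Bool) (a : Ω) : ℝ :=
  if b = true then 𝔼 c, U a c else 𝔼 c, U c a

/-- Its second moment. -/
noncomputable def dsq (U : Ω → Ω → ℝ) (b : Bool) : ℝ := 𝔼 a, dl U b a ^ 2

lemma dsq_nonneg (U : Ω → Ω → ℝ) (b : Bool) : 0 ≤ dsq U b :=
  Finset.expect_nonneg (fun _ _ => sq_nonneg _)

omit [Fintype Ω] [Nonempty Ω] [DecidableEq Ω] in
lemma abs_prod_edges_le {U : Ω → Ω → ℝ} {ε : ℝ} (hU : ∀ a b, |U a b| ≤ ε)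
    (F : Finset (V × V)) (x : V → Ω) : |∏ e ∈ F, U (x e.1) (x e.2)| ≤ ε ^ F.card := by
  rw [Finset.abs_prod, ← Finset.prod_const]
  exact Finset.prod_le_prod (fun e _ => abs_nonneg _) (fun e _ => hU _ _)

lemma abs_expect_le_of_bound {f : (V → Ω) → ℝ} {B : ℝ} (h : ∀ x, |f x| ≤ B) :
    |𝔼 x, f x| ≤ B :=
  (Finset.abs_expect_le _ _).trans (Finset.expect_le univ_nonempty (fun x _ => h x))

lemma abs_wt_le {U : Ω → Ω → ℝ} {ε : ℝ} (hU : ∀ a b, |U a b| ≤ ε) (F : Finset (V × V)) :
    |wt U F| ≤ ε ^ F.card := abs_expect_le_of_bound (abs_prod_edges_le hU F)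

lemma wt_empty (U : Ω → Ω → ℝ) : wt U (∅ : Finset (V × V)) = 1 := by
  simp [wt]

omit [Fintype Ω] [Nonempty Ω] [DecidableEq Ω] [Fintype V] in
lemma dependsOnly_prod (U : Ω → Ω → ℝ) (F : Finset (V × V)) :
    DependsOnly (verts F) (fun x : V → Ω => ∏ e ∈ F, U (x e.1) (x e.2)) := by
  intro x y h
  refine Finset.prod_congr rfl (fun e he => ?_)
  rw [h e.1 (mem_verts.mpr ⟨e, he, by simp [ends]⟩),
    h e.2 (mem_verts.mpr ⟨e, he, by simp [ends]⟩)]

lemma wt_union (U : Ω → Ω → ℝ) {K R : Finset (V × V)} (h : Disjoint (verts K) (verts R)) :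
    wt U (K ∪ R) = wt U K * wt U R := by
  have hd : Disjoint K R := by
    rw [Finset.disjoint_left]
    intro e hK hR
    exact Finset.disjoint_left.mp h (mem_verts.mpr ⟨e, hK, show e.1 ∈ ends e by simp [ends]⟩)
      (mem_verts.mpr ⟨e, hR, show e.1 ∈ ends e by simp [ends]⟩)
  unfold wt
  simp only [Finset.prod_union hd]
  exact expect_mul_of_disjoint _ _ h _ _ (dependsOnly_prod U K) (dependsOnly_prod U R)

/-- The endpoint of `e` other than `l`. -/
def other (e : V × V) (l : V) : V := if e.1 = l then e.2 else e.1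

/-- Averaging out a leaf. -/
lemma peel_leaf (U : Ω → Ω → ℝ) {col : V → Bool} {F : Finset (V × V)} (hF : Oriented col F)
    {l : V} {e : V × V} (hl : starAt l F = {e}) (g : (V → Ω) → ℝ)
    (hg : ∀ x a, g (Function.update x l a) = g x) :
    (𝔼 x : V → Ω, g x * ∏ f ∈ F, U (x f.1) (x f.2))
      = 𝔼 x : V → Ω, g x * dl U (col l) (x (other e l)) * ∏ f ∈ F.erase e, U (x f.1) (x f.2) := by
  have he : e ∈ starAt l F := by rw [hl]; exact mem_singleton_self _
  obtain ⟨heF, hle⟩ := mem_filter.mp he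
  have hrest : ∀ (x : V → Ω) (a : Ω), ∏ f ∈ F.erase e, U (Function.update x l a f.1) (Function.update x l a f.2)
      = ∏ f ∈ F.erase e, U (x f.1) (x f.2) := by
    intro x a
    refine Finset.prod_congr rfl (fun f hf => ?_)
    obtain ⟨hfe, hfF⟩ := mem_erase.mp hf
    have hlf : l ∉ ends f := by
      intro h
      have : f ∈ starAt l F := mem_filter.mpr ⟨hfF, h⟩
      rw [hl, mem_singleton] at this
      exact hfe this
    simp only [ends, mem_insert, mem_singleton, not_or] at hlf
    rw [Function.update_of_ne (Ne.symm hlf.1), Function.update_of_ne (Ne.symm hlf.2)]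
  rw [expect_update l]
  refine Finset.expect_congr rfl (fun x _ => ?_)
  have hedge : (𝔼 a, U (Function.update x l a e.1) (Function.update x l a e.2))
      = dl U (col l) (x (other e l)) := by
    simp only [ends, mem_insert, mem_singleton] at hle
    have hne := hF.ne heF
    have hc := hF e heF
    rcases hle with h | h
    · subst h
      simp [dl, hc.1, other, Function.update_of_ne hne.symm]
    · subst h
      simp [dl, hc.2, other, hne, Function.update_of_ne hne]
  calc (𝔼 a, g (Function.update x l a) *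
        ∏ f ∈ F, U (Function.update x l a f.1) (Function.update x l a f.2))
      = 𝔼 a, (g x * ∏ f ∈ F.erase e, U (x f.1) (x f.2)) *
          U (Function.update x l a e.1) (Function.update x l a e.2) := by
        refine Finset.expect_congr rfl (fun a _ => ?_)
        rw [hg, ← Finset.mul_prod_erase F _ heF, hrest]
        ring
    _ = _ := by rw [← Finset.mul_expect, hedge]; ring

lemma wt_leaf (U : Ω → Ω → ℝ) {col : V → Bool} {F : Finset (V × V)} (hF : Oriented col F)
    {l : V} {e : V × V} (hl : starAt l F = {e}) :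
    wt U F = 𝔼 x : V → Ω, dl U (col l) (x (other e l)) * ∏ f ∈ F.erase e, U (x f.1) (x f.2) := by
  have h := peel_leaf U hF hl (fun _ => 1) (fun _ _ => rfl)
  simpa [wt] using h

omit [Fintype V] in
lemma other_spec {col : V → Bool} {F : Finset (V × V)} (hF : Oriented col F) {e : V × V}
    (he : e ∈ F) {l : V} (hl : l ∈ ends e) :
    other e l ∈ ends e ∧ other e l ≠ l ∧ col (other e l) = !col l ∧
      ends e = {l, other e l} := by
  simp only [ends, mem_insert, mem_singleton] at hl
  have hne := hF.ne he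
  have hc := hF e he
  rcases hl with rfl | rfl
  · simp [other, ends, hc.1, hc.2, hne.symm]
  · simp [other, ends, hc.1, hc.2, hne, pair_comm]

lemma wt_single (U : Ω → Ω → ℝ) (hU0 : (𝔼 a, 𝔼 b, U a b) = 0) {col : V → Bool} {e : V × V}
    (h : Oriented col {e}) : wt U ({e} : Finset (V × V)) = 0 := by
  have hl : starAt e.1 ({e} : Finset (V × V)) = {e} := by simp [starAt, ends]
  rw [wt_leaf U h hl]
  have h1 : col e.1 = false := (h e (mem_singleton_self e)).1
  simp only [h1, erase_singleton, prod_empty, mul_one, dl, Bool.false_eq_true, if_false]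
  rw [expect_eval (other e e.1) (fun a => 𝔼 c, U c a), Finset.expect_comm]
  exact hU0

/-- A path with two edges has weight a second moment. -/
lemma wt_cherry (U : Ω → Ω → ℝ) {col : V → Bool} {e f : V × V} (hef : e ≠ f) {l : V}
    (h : Oriented col {e, f}) (hl : l ∈ ends e) (hlf : l ∉ ends f)
    (hx : other e l ∈ ends f) :
    wt U ({e, f} : Finset (V × V)) = dsq U (col l) := by
  obtain ⟨-, hxl, hcx, he⟩ := other_spec h (show e ∈ ({e, f} : Finset (V × V)) by simp) hl
  obtain ⟨hm, hmx, hcm, hfx⟩ := other_spec h (show f ∈ ({e, f} : Finset (V × V)) by simp) hx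
  have h1 : starAt l ({e, f} : Finset (V × V)) = {e} := by
    simp [starAt, filter_insert, filter_singleton, hl, hlf]
  rw [wt_leaf U h h1, erase_insert (by simp [hef])]
  let x := other e l
  let m := other f x
  have hml : m ∉ ends e := by
    rw [he]
    simp only [mem_insert, mem_singleton, not_or]
    exact ⟨fun h' => hlf (h' ▸ hm), hmx⟩
  have h2 : starAt m ({f} : Finset (V × V)) = {f} := by
    simp [starAt, filter_singleton, m, x, hm]
  have hp := peel_leaf U (h.mono (by simp)) h2 (fun z => dl U (col l) (z x)) (fun z a => by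
    show dl U (col l) (Function.update z m a x) = _
    rw [Function.update_of_ne (by exact fun h' => hmx h'.symm)])
  have hox : other f m = x := by
    obtain ⟨ho, hom, -, -⟩ := other_spec h (show f ∈ ({e, f} : Finset (V × V)) by simp) hm
    rw [hfx, mem_insert, mem_singleton] at ho
    exact ho.resolve_right hom
  rw [hp, hox]
  simp only [erase_singleton, prod_empty, mul_one]
  have hcc : col m = col l := by
    show col (other f x) = col l
    rw [hcm, hcx, Bool.not_not]
  rw [hcc, expect_eval x (fun a => dl U (col l) a * dl U (col l) a)]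
  simp [dsq, sq]

/-- Leaves of an edge set. -/
def leaves (F : Finset (V × V)) : Finset V := (verts F).filter (fun v => edeg F v = 1)

omit [Fintype V] in
lemma leaf_star {F : Finset (V × V)} {l : V} (hl : l ∈ leaves F) : ∃ e, starAt l F = {e} :=
  card_eq_one.mp (mem_filter.mp hl).2

/-- The bound for a connected set with two leaves. -/
lemma wt_two_leaves {U : Ω → Ω → ℝ} {ε : ℝ} (hU : ∀ a b, |U a b| ≤ ε)
    {col : V → Bool} {F : Finset (V × V)} (hF : Oriented col F) {l1 l2 : V} {e1 e2 : V × V}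
    (h1 : starAt l1 F = {e1}) (h2 : starAt l2 F = {e2}) (hne : e1 ≠ e2) :
    |wt U F| ≤ ε ^ (F.card - 2) * ((dsq U (col l1) + dsq U (col l2)) / 2) := by
  have he1 : e1 ∈ starAt l1 F := by rw [h1]; exact mem_singleton_self _
  have he2 : e2 ∈ starAt l2 F := by rw [h2]; exact mem_singleton_self _
  obtain ⟨he1F, hl1⟩ := mem_filter.mp he1
  obtain ⟨he2F, hl2⟩ := mem_filter.mp he2
  have hl21 : l2 ∉ ends e1 := by
    intro h
    have : e1 ∈ starAt l2 F := mem_filter.mpr ⟨he1F, h⟩
    rw [h2, mem_singleton] at this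
    exact hne this
  have hox : other e1 l1 ≠ l2 := fun h => hl21 (h ▸ (other_spec hF he1F hl1).1)
  have h2' : starAt l2 (F.erase e1) = {e2} := by
    unfold starAt at h2 ⊢
    rw [filter_erase, h2, erase_eq_of_notMem (by simpa using hne)]
  rw [wt_leaf U hF h1, peel_leaf U (hF.mono (erase_subset _ _)) h2'
    (fun z => dl U (col l1) (z (other e1 l1)))
    (fun z a => by simp only [Function.update_of_ne hox])]
  let x1 := other e1 l1
  let x2 := other e2 l2
  let R := (F.erase e1).erase e2
  have hR : R.card = F.card - 2 := by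
    show ((F.erase e1).erase e2).card = _
    rw [card_erase_of_mem (mem_erase.mpr ⟨hne.symm, he2F⟩), card_erase_of_mem he1F]
    omega
  have hε : 0 ≤ ε := (abs_nonneg _).trans (hU (Classical.arbitrary Ω) (Classical.arbitrary Ω))
  calc |𝔼 x : V → Ω, dl U (col l1) (x x1) * dl U (col l2) (x x2) * ∏ f ∈ R, U (x f.1) (x f.2)|
      ≤ 𝔼 x : V → Ω, |dl U (col l1) (x x1) * dl U (col l2) (x x2) *
          ∏ f ∈ R, U (x f.1) (x f.2)| := Finset.abs_expect_le _ _
    _ ≤ 𝔼 x : V → Ω, ε ^ R.card *
          ((dl U (col l1) (x x1) ^ 2 + dl U (col l2) (x x2) ^ 2) / 2) := by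
        refine Finset.expect_le_expect (fun x _ => ?_)
        rw [abs_mul, mul_comm]
        refine mul_le_mul (abs_prod_edges_le hU R x) ?_ (abs_nonneg _) (by positivity)
        rw [abs_mul]
        nlinarith [sq_nonneg (|dl U (col l1) (x x1)| - |dl U (col l2) (x x2)|),
          sq_abs (dl U (col l1) (x x1)), sq_abs (dl U (col l2) (x x2))]
    _ = _ := by
        rw [← Finset.mul_expect, hR, ← Finset.expect_div, Finset.expect_add_distrib,
          expect_eval x1 (fun a => dl U (col l1) a ^ 2),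
          expect_eval x2 (fun a => dl U (col l2) a ^ 2)]
        rfl

/-- The weight of a cycle as a cyclic average. -/
lemma cycle_edge_val (U : Ω → Ω → ℝ) {col : V → Bool} {n : ℕ} [NeZero n] {c : Fin n → V}
    (hcol : ∀ i : Fin n, col (c i) = decide (i.val % 2 = 1)) (y : V → Ω) (t : Fin n) :
    U (y (oedge col (c t) (c (t + 1))).1) (y (oedge col (c t) (c (t + 1))).2)
      = altKer U t.val (y (c t)) (y (c (t + 1))) := by
  unfold oedge altKer
  rcases Nat.mod_two_eq_zero_or_one t.val with h | h <;> simp [hcol, h]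

lemma prod_cycle (U : Ω → Ω → ℝ) {col : V → Bool} {C : Finset (V × V)} (D : CycleData col C)
    [NeZero (2 * D.k)] (y : V → Ω) :
    ∏ e ∈ C, U (y e.1) (y e.2)
      = ∏ t : Fin (2 * D.k), altKer U t.val (y (D.c t)) (y (D.c (t + 1))) := by
  have hk := D.hk
  have hC := D.hC
  calc ∏ e ∈ C, U (y e.1) (y e.2)
      = ∏ e ∈ Finset.univ.image (fun t : Fin (2 * D.k) => oedge col (D.c t) (D.c (t + 1))),
          U (y e.1) (y e.2) := by
        refine Finset.prod_congr (hC.trans (image_congr (fun t _ => ?_))) (fun _ _ => rfl)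
        simp [finRotate_apply]
    _ = _ := by
        rw [Finset.prod_image (fun i _ j _ h => cycle_edge_inj (by omega) D.inj h)]
        exact Finset.prod_congr rfl (fun t _ => cycle_edge_val U D.hcol y t)

lemma wt_cycle (U : Ω → Ω → ℝ) {col : V → Bool} {C : Finset (V × V)} (D : CycleData col C)
    [NeZero (2 * D.k)] :
    wt U C = 𝔼 z : Fin (2 * D.k) → Ω, ∏ t, altKer U t.val (z t) (z (t + 1)) := by
  unfold wt
  simp only [prod_cycle U D]
  exact expect_comp_injective D.c D.inj (fun z => ∏ t, altKer U t.val (z t) (z (t + 1)))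

lemma wt_cycle_nonneg (U : Ω → Ω → ℝ) {col : V → Bool} {C : Finset (V × V)}
    (D : CycleData col C) : 0 ≤ wt U C := by
  have := D.neZero
  rw [wt_cycle U D]
  exact le_trans (abs_nonneg _) (cycle_expect_le U (fun _ _ => 1) (by simp))

/-- An edge set around a chordless cycle, with one bounded vertex multiplier. -/
lemma cycle_bound {U : Ω → Ω → ℝ} {ε : ℝ} (hε : 0 < ε) (hU : ∀ a b, |U a b| ≤ ε)
    {col : V → Bool} {F C : Finset (V × V)} (hF : Oriented col F) (hCF : C ⊆ F)
    (D : CycleData col C)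
    (hchord : ∀ f ∈ F, f ∉ C → ¬ ((∃ i, D.c i = f.1) ∧ (∃ j, D.c j = f.2)))
    (v : V) (φ : Ω → ℝ) (hφ : ∀ a, |φ a| ≤ 1) :
    |𝔼 x : V → Ω, φ (x v) * ∏ e ∈ F, U (x e.1) (x e.2)| ≤ ε ^ (F \ C).card * wt U C := by
  classical
  have := D.neZero
  let s : Finset V := Finset.univ.image D.c
  have hs : ∀ u, u ∈ s ↔ ∃ t, D.c t = u := by intro u; simp [s]
  rw [expect_resample s]
  refine abs_expect_le_of_bound (fun x => ?_)
  let K : V × V → ℝ := fun e => if e.1 ∈ s ∨ e.2 ∈ s then ε else U (x e.1) (x e.2)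
  let G : V × V → Fin (2 * D.k) → Ω → ℝ := fun e t a =>
    if D.c t = e.1 then U a (x e.2) / ε else if D.c t = e.2 then U (x e.1) a / ε else 1
  let Kv : ℝ := if v ∈ s then 1 else φ (x v)
  let Gv : Fin (2 * D.k) → Ω → ℝ := fun t a => if D.c t = v then φ a else 1
  have hφf : ∀ y, φ (s.piecewise y x v) = Kv * ∏ t, Gv t (y (D.c t)) := by
    intro y
    by_cases hv : v ∈ s
    · obtain ⟨t, ht⟩ := (hs v).mp hv
      rw [Finset.prod_eq_single t
        (fun b _ hb => if_neg (fun h => hb (D.inj (h.trans ht.symm)))) (by simp)]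
      simp [Kv, Gv, hv, ht]
    · rw [Finset.prod_eq_one (fun t _ => if_neg (fun h => hv ((hs v).mpr ⟨t, h⟩)))]
      simp [Kv, hv]
  have hef : ∀ y, ∀ e ∈ F \ C, U (s.piecewise y x e.1) (s.piecewise y x e.2)
      = K e * ∏ t, G e t (y (D.c t)) := by
    intro y e he
    obtain ⟨heF, heC⟩ := mem_sdiff.mp he
    have hnot := hchord e heF heC
    have hne := hF.ne heF
    by_cases h1 : e.1 ∈ s
    · have h2 : e.2 ∉ s := fun h2 => hnot ⟨(hs _).mp h1, (hs _).mp h2⟩
      obtain ⟨t, ht⟩ := (hs _).mp h1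
      rw [Finset.prod_eq_single t (fun b _ hb => ?_) (by simp)]
      · simp only [K, G, h1, true_or, if_true, ht, piecewise_eq_of_mem _ _ _ h1,
          piecewise_eq_of_notMem _ _ _ h2]
        field_simp
      · have hb1 : D.c b ≠ e.1 := fun h => hb (D.inj (h.trans ht.symm))
        have hb2 : D.c b ≠ e.2 := fun h => h2 ((hs _).mpr ⟨b, h⟩)
        simp [G, hb1, hb2]
    · by_cases h2 : e.2 ∈ s
      · obtain ⟨t, ht⟩ := (hs _).mp h2
        rw [Finset.prod_eq_single t (fun b _ hb => ?_) (by simp)]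
        · have ht1 : D.c t ≠ e.1 := by rw [ht]; exact hne.symm
          simp only [K, G, h2, or_true, if_true, if_neg hne.symm, ht,
            piecewise_eq_of_mem _ _ _ h2, piecewise_eq_of_notMem _ _ _ h1]
          field_simp
        · have hb1 : D.c b ≠ e.1 := fun h => h1 ((hs _).mpr ⟨b, h⟩)
          have hb2 : D.c b ≠ e.2 := fun h => hb (D.inj (h.trans ht.symm))
          simp [G, hb1, hb2]
      · rw [Finset.prod_eq_one (fun t _ => ?_)]
        · simp [K, h1, h2]
        · have hb1 : D.c t ≠ e.1 := fun h => h1 ((hs _).mpr ⟨t, h⟩)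
          have hb2 : D.c t ≠ e.2 := fun h => h2 ((hs _).mpr ⟨t, h⟩)
          simp [G, hb1, hb2]
  let d : Fin (2 * D.k) → Ω → ℝ := fun t a => Gv t a * ∏ e ∈ F \ C, G e t a
  have hfull : ∀ y, φ (s.piecewise y x v) *
      ∏ e ∈ F, U (s.piecewise y x e.1) (s.piecewise y x e.2)
      = (Kv * ∏ e ∈ F \ C, K e) *
        ∏ t, d t (y (D.c t)) * altKer U t.val (y (D.c t)) (y (D.c (t + 1))) := by
    intro y
    rw [← Finset.prod_sdiff hCF, Finset.prod_congr rfl (hef y), hφf, prod_cycle U D]
    have hp : ∀ t, s.piecewise y x (D.c t) = y (D.c t) := fun t =>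
      piecewise_eq_of_mem _ _ _ ((hs _).mpr ⟨t, rfl⟩)
    simp only [hp, d, Finset.prod_mul_distrib]
    rw [Finset.prod_comm]
    ring
  simp only [hfull, ← Finset.mul_expect]
  have hcomp := expect_comp_injective (Ω := Ω) D.c D.inj
    (fun z => ∏ t, d t (z t) * altKer U t.val (z t) (z (t + 1)))
  simp only [Function.comp] at hcomp
  rw [hcomp, abs_mul]
  have hd : ∀ t a, |d t a| ≤ 1 := by
    intro t a
    show |Gv t a * ∏ e ∈ F \ C, G e t a| ≤ 1
    rw [abs_mul, Finset.abs_prod]
    refine mul_le_one₀ ?_ (Finset.prod_nonneg (fun e _ => abs_nonneg _))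
      (Finset.prod_le_one (fun e _ => abs_nonneg _) (fun e _ => ?_))
    · simp only [Gv]
      split_ifs
      · exact hφ a
      · simp
    · simp only [G]
      split_ifs
      · rw [abs_div, abs_of_pos hε, div_le_one hε]; exact hU _ _
      · rw [abs_div, abs_of_pos hε, div_le_one hε]; exact hU _ _
      · simp
  have hK : |Kv * ∏ e ∈ F \ C, K e| ≤ ε ^ (F \ C).card := by
    rw [abs_mul, Finset.abs_prod, ← one_mul (ε ^ _), ← Finset.prod_const]
    refine mul_le_mul ?_ (Finset.prod_le_prod (fun e _ => abs_nonneg _) (fun e _ => ?_))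
      (Finset.prod_nonneg (fun e _ => abs_nonneg _)) zero_le_one
    · simp only [Kv]
      split_ifs
      · simp
      · exact hφ _
    · simp only [K]
      split_ifs
      · rw [abs_of_pos hε]
      · exact hU _ _
  rw [wt_cycle U D]
  exact mul_le_mul hK (cycle_expect_le U d hd) (abs_nonneg _) (by positivity)

/-- The bound for a connected set with a single leaf. -/
lemma wt_one_leaf {U : Ω → Ω → ℝ} {ε : ℝ} (hε : 0 < ε) (hU : ∀ a b, |U a b| ≤ ε)
    {col : V → Bool} {F C : Finset (V × V)} (hF : Oriented col F) {l : V} {e : V × V}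
    (hl : starAt l F = {e}) (hCF : C ⊆ F.erase e) (D : CycleData col C)
    (hchord : ∀ f ∈ F, f ∉ C → ¬ ((∃ i, D.c i = f.1) ∧ (∃ j, D.c j = f.2)))
    (h2 : 2 ≤ F.card) {Λ : ℝ} (hΛ : 0 < Λ) :
    |wt U F| ≤ Λ / 2 * ε ^ (F.card - 2) * dsq U (col l)
      + ε ^ (F \ C).card * wt U C / (2 * Λ) := by
  classical
  have he : e ∈ starAt l F := by rw [hl]; exact mem_singleton_self _
  obtain ⟨heF, -⟩ := mem_filter.mp he
  let v := other e l
  let F' := F.erase e
  let P : (V → Ω) → ℝ := fun x => ∏ f ∈ F', U (x f.1) (x f.2)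
  let s : Finset V := Finset.univ.erase v
  let R : Ω → ℝ := fun a => 𝔼 y : V → Ω, P (s.piecewise y (fun _ => a))
  have hv : ∀ x y : V → Ω, s.piecewise y x v = x v := fun x y =>
    piecewise_eq_of_notMem _ _ _ (by simp [s])
  have hpw : ∀ x y : V → Ω, s.piecewise y x = s.piecewise y (fun _ => x v) := by
    intro x y
    ext i
    by_cases hi : i = v
    · subst hi; rw [hv, hv]
    · rw [piecewise_eq_of_mem _ _ _ (by simp [s, hi]), piecewise_eq_of_mem _ _ _ (by simp [s, hi])]
  have key : ∀ g : Ω → ℝ, (𝔼 x : V → Ω, g (x v) * P x) = 𝔼 a, g a * R a := by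
    intro g
    rw [expect_resample s]
    have h : ∀ x : V → Ω, (𝔼 y : V → Ω, g (s.piecewise y x v) * P (s.piecewise y x))
        = g (x v) * R (x v) := by
      intro x
      simp only [hv]
      rw [← Finset.mul_expect]
      congr 1
      exact Finset.expect_congr rfl (fun y _ => by rw [hpw])
    simp only [h]
    exact expect_eval v (fun a => g a * R a)
  have hw : wt U F = 𝔼 a, dl U (col l) a * R a := by
    rw [wt_leaf U hF hl]; exact key _
  have hF'card : F'.card = F.card - 1 := card_erase_of_mem heF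
  have hRle : ∀ a, |R a| ≤ ε ^ (F.card - 1) := fun a =>
    hF'card ▸ abs_expect_le_of_bound (fun y => abs_prod_edges_le hU F' _)
  have hR1 : (𝔼 a, |R a|) ≤ ε ^ (F' \ C).card * wt U C := by
    have h := cycle_bound hε hU (hF.mono (erase_subset _ _)) hCF D
      (fun f hf hfC => hchord f (mem_erase.mp hf).2 hfC) v
      (fun a => if 0 ≤ R a then 1 else -1) (fun a => by split_ifs <;> simp)
    rw [key (fun a => if 0 ≤ R a then 1 else -1)] at h
    refine le_trans ?_ h
    refine le_trans (le_of_eq ?_) (le_abs_self _)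
    refine Finset.expect_congr rfl (fun a _ => ?_)
    split_ifs with h0
    · simp [abs_of_nonneg h0]
    · rw [abs_of_neg (not_le.mp h0)]; ring
  have hj : (F \ C).card = (F' \ C).card + 1 := by
    have heC : e ∉ C := fun h => (mem_erase.mp (hCF h)).1 rfl
    rw [show F' \ C = (F \ C).erase e by ext f; simp [F']; tauto,
      card_erase_add_one (mem_sdiff.mpr ⟨heF, heC⟩)]
  have hpt : ∀ a, |dl U (col l) a * R a|
      ≤ Λ / 2 * ε ^ (F.card - 2) * dl U (col l) a ^ 2 + ε / (2 * Λ) * |R a| := by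
    intro a
    have he' : ε ^ (F.card - 1) = ε ^ (F.card - 2) * ε := by
      rw [← pow_succ]; congr 1; omega
    have h := hRle a
    rw [he'] at h
    have hp : 0 < ε ^ (F.card - 2) := by positivity
    rw [abs_mul]
    have hR0 := abs_nonneg (R a)
    have h1 : |R a| ^ 2 ≤ ε ^ (F.card - 2) * ε * |R a| := by
      rw [sq]; exact mul_le_mul_of_nonneg_right h hR0
    rw [← sq_abs (dl U (col l) a)]
    have h2 := sq_nonneg (Λ * ε ^ (F.card - 2) * |dl U (col l) a| - |R a|)
    field_simp
    nlinarith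
  rw [hw]
  calc |𝔼 a, dl U (col l) a * R a| ≤ 𝔼 a, |dl U (col l) a * R a| := Finset.abs_expect_le _ _
    _ ≤ 𝔼 a, (Λ / 2 * ε ^ (F.card - 2) * dl U (col l) a ^ 2 + ε / (2 * Λ) * |R a|) :=
        Finset.expect_le_expect (fun a _ => hpt a)
    _ = Λ / 2 * ε ^ (F.card - 2) * dsq U (col l) + ε / (2 * Λ) * 𝔼 a, |R a| := by
        rw [Finset.expect_add_distrib, ← Finset.mul_expect, ← Finset.mul_expect]; rfl
    _ ≤ Λ / 2 * ε ^ (F.card - 2) * dsq U (col l)
          + ε / (2 * Λ) * (ε ^ (F' \ C).card * wt U C) :=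
        add_le_add le_rfl (mul_le_mul_of_nonneg_left hR1 (by positivity))
    _ = _ := by rw [hj, pow_succ]; ring

end Vale.Agent.P050
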