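import Mathlib
import Vale.Agent.P050.Avg
import Vale.Agent.P050.Count
import Vale.Agent.P050.Even
import Vale.Agent.P050.CycleSum
import Vale.Agent.P050.Weights

/-!
The finite form of the local theorem.
-/

open Finset
open scoped BigOperators

set_option linter.unusedSectionVars false

namespace Vale.Agent.P050

variable {V Ω : Type*} [Fintype V] [DecidableEq V] [Fintype Ω] [DecidableEq Ω] [Nonempty Ω]

/-- Edges inside a vertex set. -/
def edgesIn (E : Finset (V × V)) (T : Finset V) : Finset (V × V) := E.filter (fun e => ends e ⊆ T)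

/-- The expansion on a vertex set. -/
noncomputable def Z (U : Ω → Ω → ℝ) (E : Finset (V × V)) (T : Finset V) : ℝ :=
  ∑ X ∈ (edgesIn E T).powerset, wt U X

open Classical in
/-- Connected edge sets. -/
noncomputable def conns (F : Finset (V × V)) : Finset (Finset (V × V)) :=
  F.powerset.filter Conn

lemma mem_conns {F K : Finset (V × V)} : K ∈ conns F ↔ K ⊆ F ∧ Conn K := by
  classical simp [conns]

lemma mem_edgesIn {E : Finset (V × V)} {T : Finset V} {e : V × V} :
    e ∈ edgesIn E T ↔ e ∈ E ∧ ends e ⊆ T := mem_filter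

lemma edgesIn_mono (E : Finset (V × V)) {A B : Finset V} (h : A ⊆ B) :
    edgesIn E A ⊆ edgesIn E B := fun _ he =>
  mem_edgesIn.mpr ⟨(mem_edgesIn.mp he).1, (mem_edgesIn.mp he).2.trans h⟩

lemma verts_subset_of_edgesIn {E X : Finset (V × V)} {T : Finset V} (h : X ⊆ edgesIn E T) :
    verts X ⊆ T := by
  intro z hz
  obtain ⟨e, he, hze⟩ := mem_verts.mp hz
  exact (mem_edgesIn.mp (h he)).2 hze

lemma Conn.verts_nonempty {K : Finset (V × V)} (hK : Conn K) : (verts K).Nonempty :=
  let ⟨e, he⟩ := hK.1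
  ⟨e.1, mem_verts.mpr ⟨e, he, mem_insert_self _ _⟩⟩

lemma Conn.att_vertex {K : Finset (V × V)} (hK : Conn K) {v : V} (hv : v ∈ verts K) :
    Att {v} K := by
  intro Y hY hYne hd
  rw [hK.2 Y hY hYne] at hd
  exact Finset.disjoint_left.mp hd hv (mem_singleton_self v)

lemma Conn.card_verts_le {K : Finset (V × V)} (hK : Conn K) : (verts K).card ≤ K.card + 1 := by
  obtain ⟨v, hv⟩ := hK.verts_nonempty
  have := att_card_verts (hK.att_vertex hv)
  rw [sdiff_singleton_eq_erase, card_erase_of_mem hv] at this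
  omega

lemma Z_univ (U : Ω → Ω → ℝ) (E : Finset (V × V)) :
    Z U E univ = 𝔼 x : V → Ω, ∏ e ∈ E, (1 + U (x e.1) (x e.2)) := by
  have : edgesIn E (univ : Finset V) = E := filter_true_of_mem (fun e _ => subset_univ _)
  simp only [Z, this, wt, Finset.prod_one_add]
  exact (Finset.expect_sum_comm _ _ _).symm

lemma Z_empty (U : Ω → Ω → ℝ) (E : Finset (V × V)) : Z U E ∅ = 1 := by
  have : edgesIn E (∅ : Finset V) = ∅ :=
    filter_false_of_mem (fun e _ h => by simpa using h (mem_insert_self e.1 _))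
  simp [Z, this, wt_empty]

open Classical in
/-- Removing one vertex. -/
lemma Z_step (U : Ω → Ω → ℝ) (E : Finset (V × V)) (T : Finset V) (v : V) :
    Z U E T - Z U E (T.erase v)
      = ∑ K ∈ conns (edgesIn E T) with v ∈ verts K, wt U K * Z U E (T \ verts K) := by
  classical
  have h1 : (edgesIn E T).powerset.filter (fun X => ¬ v ∈ verts X)
      = (edgesIn E (T.erase v)).powerset := by
    ext X
    simp only [mem_filter, mem_powerset]
    constructor
    · rintro ⟨hX, hv⟩ e he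
      refine mem_edgesIn.mpr ⟨(mem_edgesIn.mp (hX he)).1, fun z hz => mem_erase.mpr
        ⟨fun h => hv (mem_verts.mpr ⟨e, he, h ▸ hz⟩), (mem_edgesIn.mp (hX he)).2 hz⟩⟩
    · intro hX
      exact ⟨hX.trans (edgesIn_mono E (erase_subset _ _)),
        fun hv => (mem_erase.mp (verts_subset_of_edgesIn hX hv)).1 rfl⟩
  unfold Z
  rw [← sum_filter_add_sum_filter_not (edgesIn E T).powerset (fun X => v ∈ verts X), h1,
    add_sub_cancel_right]
  simp only [mul_sum]
  rw [Finset.sum_sigma']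
  refine Finset.sum_nbij' (fun X => ⟨compAt v X, X \ compAt v X⟩) (fun p => p.1 ∪ p.2) ?_ ?_ ?_ ?_ ?_
  · intro X hX
    simp only [mem_filter, mem_powerset] at hX
    have hc := compAt_closed v X
    have hvK : v ∈ verts (compAt v X) := by
      obtain ⟨e, he, hve⟩ := mem_verts.mp hX.2
      exact mem_verts.mpr ⟨e, starAt_subset_compAt v X (mem_filter.mpr ⟨he, hve⟩), hve⟩
    simp only [mem_sigma, mem_filter, mem_powerset, mem_conns]
    refine ⟨⟨⟨hc.1.trans hX.1, compAt_conn hX.2⟩, hvK⟩, fun e he => ?_⟩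
    refine mem_edgesIn.mpr ⟨(mem_edgesIn.mp (hX.1 (mem_sdiff.mp he).1)).1, fun z hz => ?_⟩
    exact mem_sdiff.mpr ⟨(mem_edgesIn.mp (hX.1 (mem_sdiff.mp he).1)).2 hz,
      Finset.disjoint_right.mp (verts_disjoint_of_closed hc) (mem_verts.mpr ⟨e, he, hz⟩)⟩
  · intro p hp
    simp only [mem_sigma, mem_filter, mem_powerset, mem_conns] at hp
    simp only [mem_filter, mem_powerset]
    exact ⟨union_subset hp.1.1.1 (hp.2.trans (edgesIn_mono E sdiff_subset)),
      verts_mono subset_union_left hp.1.2⟩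
  · intro X _
    exact union_sdiff_of_subset (compAt_closed v X).1
  · rintro ⟨K, R⟩ hp
    simp only [mem_sigma, mem_filter, mem_powerset, mem_conns] at hp
    have hd : Disjoint (verts K) (verts R) :=
      Finset.disjoint_of_subset_right (verts_subset_of_edgesIn hp.2) disjoint_sdiff
    have hdE : Disjoint K R := by
      rw [Finset.disjoint_left]
      intro e hK hR
      exact Finset.disjoint_left.mp hd (mem_verts.mpr ⟨e, hK, mem_insert_self e.1 _⟩)
        (mem_verts.mpr ⟨e, hR, mem_insert_self e.1 _⟩)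
    simp only
    rw [compAt_union hp.1.1.2 hp.1.2 hd, union_sdiff_cancel_left hdE]
  · intro X hX
    simp only [mem_filter, mem_powerset] at hX
    conv_lhs => rw [← union_sdiff_of_subset (compAt_closed v X).1]
    exact wt_union U (verts_disjoint_of_closed (compAt_closed v X))

lemma Z_chain {U : Ω → Ω → ℝ} {E : Finset (V × V)} {n : ℕ}
    (hs : ∀ T : Finset V, T.card < n → ∀ w ∈ T, Z U E (T.erase w) ≤ 2 * Z U E T)
    (A : Finset V) : ∀ (m : ℕ) (B : Finset V), A ⊆ B → B.card < n → (B \ A).card = m →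
      Z U E A ≤ 2 ^ m * Z U E B := by
  intro m
  induction m with
  | zero =>
    intro B hAB _ hm
    have : A = B := Subset.antisymm hAB (sdiff_eq_empty_iff_subset.mp (card_eq_zero.mp hm))
    simp [this]
  | succ m ih =>
    intro B hAB hB hm
    obtain ⟨w, hw⟩ := card_pos.mp (show 0 < (B \ A).card by omega)
    obtain ⟨hwB, hwA⟩ := mem_sdiff.mp hw
    have h1 := ih (B.erase w) (subset_erase.mpr ⟨hAB, hwA⟩)
      (lt_of_le_of_lt (card_le_card (erase_subset _ _)) hB)
      (by rw [erase_sdiff_comm, card_erase_of_mem hw]; omega)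
    calc Z U E A ≤ 2 ^ m * Z U E (B.erase w) := h1
      _ ≤ 2 ^ m * (2 * Z U E B) :=
          mul_le_mul_of_nonneg_left (hs B hB w hwB) (by positivity)
      _ = 2 ^ (m + 1) * Z U E B := by ring

/-- A charging map costs little. -/
lemma charge_le (Δ : ℕ) {x y : ℝ} (hx : 0 ≤ x) (hy : 0 < y) (hy1 : y ≤ 1)
    (hxy : x / y * Δ ≤ 1 / 4) (F : Finset (V × V)) (hdeg : ∀ v, (starAt v F).card ≤ Δ)
    (𝒦 𝒯 : Finset (Finset (V × V))) (q : Finset (V × V) → Finset (V × V))
    (j0 : Finset (V × V) → ℕ) (g : Finset (V × V) → ℝ) (hg : ∀ Q ∈ 𝒯, 0 ≤ g Q)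
    (hq : ∀ K ∈ 𝒦, K ∈ conns F ∧ q K ∈ 𝒯 ∧ q K ⊆ K ∧ (q K).Nonempty ∧
      j0 (q K) ≤ (K \ q K).card) :
    ∑ K ∈ 𝒦, x ^ (K \ q K).card * g (q K)
      ≤ ∑ Q ∈ 𝒯, g Q * (y ^ j0 Q * (2 : ℝ) ^ (verts Q).card) := by
  classical
  rw [← Finset.sum_fiberwise_of_maps_to (fun K hK => (hq K hK).2.1)]
  refine sum_le_sum (fun Q hQ => ?_)
  calc ∑ K ∈ 𝒦 with q K = Q, x ^ (K \ q K).card * g (q K)
      = g Q * ∑ X ∈ ((𝒦.filter (fun K => q K = Q)).image (fun K => K \ Q)), x ^ X.card := by
        rw [mul_sum, sum_image]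
        · refine sum_congr rfl (fun K hK => ?_)
          rw [(mem_filter.mp hK).2, mul_comm]
        · intro K hK K' hK' h
          replace hK := mem_filter.mp hK
          replace hK' := mem_filter.mp hK'
          have h' : K \ Q = K' \ Q := h
          have h1 : Q ⊆ K := hK.2 ▸ (hq K hK.1).2.2.1
          have h2 : Q ⊆ K' := hK'.2 ▸ (hq K' hK'.1).2.2.1
          rw [← sdiff_union_of_subset h1, ← sdiff_union_of_subset h2, h']
    _ ≤ g Q * (y ^ j0 Q * (2 : ℝ) ^ (verts Q).card) := by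
        refine mul_le_mul_of_nonneg_left ?_ (hg Q hQ)
        refine le_trans (sum_le_sum_of_subset_of_nonneg ?_ (fun _ _ _ => by positivity))
          (attached_tail_le Δ hx hy hy1 hxy F hdeg (verts Q) (j0 Q))
        intro X hX
        obtain ⟨K, hK, rfl⟩ := mem_image.mp hX
        obtain ⟨hK, hqK⟩ := mem_filter.mp hK
        obtain ⟨hKc, -, hsub, hne, hj⟩ := hq K hK
        rw [hqK] at hsub hne hj
        exact mem_filter.mpr ⟨mem_powerset.mpr (sdiff_subset.trans (mem_conns.mp hKc).1),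
          (mem_conns.mp hKc).2.att hsub hne, hj⟩

lemma pair_conn {e f : V × V} {z : V} (he : z ∈ ends e) (hf : z ∈ ends f) :
    Conn ({e, f} : Finset (V × V)) := by
  refine ⟨⟨e, by simp⟩, fun Y hY hne => ?_⟩
  refine Subset.antisymm hY.1 ?_
  by_contra hnot
  obtain ⟨a, ha, haY⟩ := Finset.not_subset.mp hnot
  obtain ⟨b, hb⟩ := hne
  have hd := hY.2 b hb a (mem_sdiff.mpr ⟨ha, haY⟩)
  have hb' := hY.1 hb
  simp only [mem_insert, mem_singleton] at ha hb'
  have hza : z ∈ ends a := by rcases ha with rfl | rfl <;> assumption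
  have hzb : z ∈ ends b := by rcases hb' with rfl | rfl <;> assumption
  exact Finset.disjoint_left.mp hd hzb hza

/-- A second edge next to a leaf edge. -/
lemma exists_next {col : V → Bool} {K : Finset (V × V)} (hor : Oriented col K) (hK : Conn K)
    (h2 : 2 ≤ K.card) {l : V} {e : V × V} (hl : starAt l K = {e}) :
    ∃ f ∈ K, e ≠ f ∧ l ∉ ends f ∧ other e l ∈ ends f := by
  have he : e ∈ starAt l K := by rw [hl]; exact mem_singleton_self _
  obtain ⟨heK, hle⟩ := mem_filter.mp he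
  obtain ⟨-, -, -, hends⟩ := other_spec hor heK hle
  have hlf : ∀ f ∈ K, f ≠ e → l ∉ ends f := by
    intro f hf hne h
    have : f ∈ starAt l K := mem_filter.mpr ⟨hf, h⟩
    rw [hl, mem_singleton] at this
    exact hne this
  by_contra h
  push Not at h
  have hc : ClosedIn ({e} : Finset (V × V)) K := by
    refine ⟨singleton_subset_iff.mpr heK, fun a ha f hf => ?_⟩
    rw [mem_singleton] at ha
    obtain ⟨hfK, hfe⟩ := mem_sdiff.mp hf
    rw [mem_singleton] at hfe
    rw [ha, hends, Finset.disjoint_left]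
    intro z hz hzf
    rw [mem_insert, mem_singleton] at hz
    rcases hz with rfl | rfl
    · exact hlf f hfK hfe hzf
    · exact h f hfK (Ne.symm hfe) (hlf f hfK hfe) hzf
  have := congrArg Finset.card (hK.2 _ hc (singleton_nonempty e))
  rw [card_singleton] at this
  omega

/-- The cherry at a leaf. -/
lemma exists_cherry (U : Ω → Ω → ℝ) {col : V → Bool} {F K : Finset (V × V)} (hor : Oriented col F)
    (hK : K ∈ conns F) (h2 : 2 ≤ K.card) {l : V} {e : V × V} (hl : starAt l K = {e}) :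
    ∃ Q ⊆ K, Q ∈ (conns F).filter (fun Q => Q.card = 2) ∧ wt U Q = dsq U (col l) := by
  obtain ⟨hKF, hKc⟩ := mem_conns.mp hK
  have horK := hor.mono hKF
  have he : e ∈ starAt l K := by rw [hl]; exact mem_singleton_self _
  obtain ⟨heK, hle⟩ := mem_filter.mp he
  obtain ⟨f, hf, hef, hlf, hx⟩ := exists_next horK hKc h2 hl
  have hsub : ({e, f} : Finset (V × V)) ⊆ K := by
    simp [insert_subset_iff, heK, hf]
  refine ⟨{e, f}, hsub, mem_filter.mpr ⟨mem_conns.mpr ⟨hsub.trans hKF,
    pair_conn (other_spec horK heK hle).1 hx⟩, card_pair hef⟩, ?_⟩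
  exact wt_cherry U hef (horK.mono hsub) hle hlf hx

lemma cycle_facts {col : V → Bool} {C : Finset (V × V)} (hor : Oriented col C)
    (D : CycleData col C) :
    EvenSet C ∧ (verts C).card = C.card ∧ ∀ v ∈ verts C, edeg C v = 2 := by
  classical
  have := D.neZero
  have hk := D.hk
  have hC : C = Finset.univ.image
      (fun i : Fin (2 * D.k) => oedge col (D.c i) (D.c (i + 1))) := by
    refine D.hC.trans (image_congr (fun t _ => ?_))
    simp [finRotate_apply]
  have hev : EvenSet C := hC ▸ cycle_even (by omega) D.inj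
  have hge : ∀ v ∈ verts C, 2 ≤ edeg C v := by
    intro v hv
    have h0 := edeg_pos_iff.mpr hv
    obtain ⟨r, hr⟩ := hev v
    omega
  have hsub : Finset.univ.image D.c ⊆ verts C := by
    intro z hz
    obtain ⟨t, -, rfl⟩ := mem_image.mp hz
    refine mem_verts.mpr ⟨oedge col (D.c t) (D.c (t + 1)), ?_, ?_⟩
    · exact (Finset.ext_iff.mp hC _).mpr (mem_image_of_mem _ (mem_univ t))
    · simp [ends_oedge]
  have hcard : C.card ≤ (verts C).card := by
    have := card_le_card hsub
    rw [card_image_of_injective _ D.inj, card_univ, Fintype.card_fin] at this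
    rw [D.hcard]; exact this
  have hsum := sum_edeg hor (Subset.refl (verts C))
  have hlow : ∑ _v ∈ verts C, 2 ≤ ∑ v ∈ verts C, edeg C v := sum_le_sum hge
  have heq : (verts C).card = C.card := by
    rw [sum_const, smul_eq_mul] at hlow
    omega
  refine ⟨hev, heq, fun v hv => ?_⟩
  refine ((Finset.sum_eq_sum_iff_of_le hge).mp ?_ v hv).symm
  rw [sum_const, smul_eq_mul, hsum, heq, mul_comm]

open Classical in
/-- Cycles among the connected sets. -/
noncomputable def cycles (col : V → Bool) (F : Finset (V × V)) : Finset (Finset (V × V)) :=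
  (conns F).filter (fun C => Nonempty (CycleData col C))

/-- A shortest even subset of a connected set. -/
lemma exists_cycle {col : V → Bool} {F K : Finset (V × V)} (hor : Oriented col F)
    (hK : K ∈ conns F) (h : (verts K).card ≤ K.card) :
    ∃ C ⊆ K, C ∈ cycles col F ∧ EvenSet C ∧
      (∀ B ⊆ K, EvenSet B → B.Nonempty → C.card ≤ B.card) ∧
      ∃ D : CycleData col C,
        ∀ f ∈ K, f ∉ C → ¬ ((∃ i, D.c i = f.1) ∧ (∃ j, D.c j = f.2)) := by
  classical
  obtain ⟨hKF, hKc⟩ := mem_conns.mp hK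
  have horK := hor.mono hKF
  obtain ⟨C, hCK, hCe, hCne, hmin⟩ := exists_shortest horK hKc.1 h
  obtain ⟨D⟩ := exists_cycleData (horK.mono hCK) hCe hCne (fun B hB => hmin B (hB.trans hCK))
  refine ⟨C, hCK, mem_filter.mpr ⟨mem_conns.mpr ⟨hCK.trans hKF, hCne, ?_⟩, ⟨D⟩⟩, hCe, hmin, D,
    fun f hf hfC => chordless horK hCK hmin D hf hfC⟩
  intro Y hY hYne
  have hYe : EvenSet Y := by
    intro v
    by_cases hv : v ∈ verts Y
    · have : starAt v Y = starAt v C := by
        refine Subset.antisymm (filter_subset_filter _ hY.1) (fun g hg => ?_)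
        obtain ⟨hgC, hvg⟩ := mem_filter.mp hg
        refine mem_filter.mpr ⟨?_, hvg⟩
        by_contra hgY
        obtain ⟨a, ha, hva⟩ := mem_verts.mp hv
        exact Finset.disjoint_left.mp (hY.2 a ha g (mem_sdiff.mpr ⟨hgC, hgY⟩)) hva hvg
      have he := hCe v
      unfold edeg at he ⊢
      rwa [this]
    · rw [edeg_eq_zero hv]; exact ⟨0, rfl⟩
  exact eq_of_subset_of_card_le hY.1 (hmin Y (hY.1.trans hCK) hYe hYne)

lemma leaves_card_verts {col : V → Bool} {K : Finset (V × V)} (hor : Oriented col K) :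
    2 * (verts K).card ≤ 2 * K.card + (leaves K).card := by
  have hsum := sum_edeg hor (Subset.refl (verts K))
  have h : ∑ v ∈ verts K, 2 ≤ ∑ v ∈ verts K, (edeg K v + if edeg K v = 1 then 1 else 0) := by
    refine sum_le_sum (fun v hv => ?_)
    have := edeg_pos_iff.mpr hv
    split_ifs <;> omega
  rw [sum_add_distrib, hsum, sum_boole, sum_const, smul_eq_mul] at h
  unfold leaves
  simp only [Nat.cast_id] at h
  omega

lemma wt_nonneg_cherry (U : Ω → Ω → ℝ) {col : V → Bool} {F Q : Finset (V × V)}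
    (hor : Oriented col F) (hQ : Q ∈ (conns F).filter (fun Q => Q.card = 2)) : 0 ≤ wt U Q := by
  obtain ⟨hQc, h2⟩ := mem_filter.mp hQ
  obtain ⟨hQF, hQconn⟩ := mem_conns.mp hQc
  have horQ := hor.mono hQF
  have hl : ∃ l e, starAt l Q = {e} := by
    have hv : (verts Q).card ≤ Q.card + 1 := hQconn.card_verts_le
    have hl' := leaves_card_verts horQ
    by_contra h
    push Not at h
    have hemp : leaves Q = ∅ := by
      by_contra hne
      obtain ⟨l, hl⟩ := nonempty_iff_ne_empty.mpr hne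
      obtain ⟨e, he⟩ := leaf_star hl
      exact h l e he
    obtain ⟨C, hCQ, hC, -, -, D, -⟩ := exists_cycle hor hQc (by rw [hemp] at hl'; simp at hl'; omega)
    have := card_le_card hCQ
    have := D.hcard
    have := D.hk
    omega
  obtain ⟨l, e, hl⟩ := hl
  obtain ⟨Q', hQ', hQ'm, hw⟩ := exists_cherry U hor hQc (by omega) hl
  have : Q' = Q := eq_of_subset_of_card_le hQ' (by rw [(mem_filter.mp hQ'm).2, h2])
  rw [← this, hw]
  exact dsq_nonneg _ _

section
variable {U : Ω → Ω → ℝ} {ε : ℝ} {Δ : ℕ} {col : V → Bool} {F : Finset (V × V)}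
  {N : Finset (V × V) → ℝ}

/-- Sets with two leaves. -/
lemma sum_two_leaves (hε : 0 < ε) (hU : ∀ a b, |U a b| ≤ ε) (hεΔ : ε * Δ ≤ 1 / 256)
    (hor : Oriented col F) (hdeg : ∀ v, (starAt v F).card ≤ Δ) (hN : ∀ K ∈ conns F, 0 ≤ N K)
    (hNr : ∀ K ∈ conns F, ∀ Q ∈ conns F, Q ⊆ K → N K ≤ 4 ^ (K \ Q).card * N Q)
    (𝒦 : Finset (Finset (V × V)))
    (h𝒦 : ∀ K ∈ 𝒦, K ∈ conns F ∧ 3 ≤ K.card ∧ 2 ≤ (leaves K).card) :
    ∑ K ∈ 𝒦, |N K * wt U K|
      ≤ 1 / 2 * ∑ Q ∈ (conns F).filter (fun Q => Q.card = 2), N Q * wt U Q := by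
  classical
  set 𝒯 := (conns F).filter (fun Q => Q.card = 2) with h𝒯
  have key : ∀ K ∈ 𝒦, ∃ q1 q2, (q1 ∈ 𝒯 ∧ q1 ⊆ K) ∧ (q2 ∈ 𝒯 ∧ q2 ⊆ K) ∧
      |N K * wt U K| ≤ (4 * ε) ^ (K \ q1).card * (N q1 * wt U q1 / 2)
        + (4 * ε) ^ (K \ q2).card * (N q2 * wt U q2 / 2) := by
    intro K hK
    obtain ⟨hKc, h3, hl⟩ := h𝒦 K hK
    obtain ⟨hKF, hKconn⟩ := mem_conns.mp hKc
    have horK := hor.mono hKF
    obtain ⟨l1, hl1, l2, hl2, hne⟩ := one_lt_card.mp (show 1 < (leaves K).card by omega)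
    obtain ⟨e1, he1⟩ := leaf_star hl1
    obtain ⟨e2, he2⟩ := leaf_star hl2
    have hee : e1 ≠ e2 := by
      intro h
      subst h
      have hm1 : e1 ∈ starAt l1 K := by rw [he1]; exact mem_singleton_self _
      have hm2 : e1 ∈ starAt l2 K := by rw [he2]; exact mem_singleton_self _
      obtain ⟨heK, h1⟩ := mem_filter.mp hm1
      have h2 := (mem_filter.mp hm2).2
      obtain ⟨f, hf, hef, -, hx⟩ := exists_next horK hKconn (by omega) he1
      rw [(other_spec horK heK h1).2.2.2, mem_insert, mem_singleton] at h2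
      rcases h2 with h2 | h2
      · exact hne h2.symm
      · have : f ∈ starAt l2 K := mem_filter.mpr ⟨hf, h2 ▸ hx⟩
        rw [he2, mem_singleton] at this
        exact hef this.symm
    obtain ⟨q1, hq1, hq1m, hw1⟩ := exists_cherry U hor hKc (by omega) he1
    obtain ⟨q2, hq2, hq2m, hw2⟩ := exists_cherry U hor hKc (by omega) he2
    refine ⟨q1, q2, ⟨hq1m, hq1⟩, ⟨hq2m, hq2⟩, ?_⟩
    obtain ⟨hq1c, hq12⟩ := mem_filter.mp hq1m
    obtain ⟨hq2c, hq22⟩ := mem_filter.mp hq2m
    have hj1 : (K \ q1).card = K.card - 2 := by rw [card_sdiff_of_subset hq1, hq12]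
    have hj2 : (K \ q2).card = K.card - 2 := by rw [card_sdiff_of_subset hq2, hq22]
    have hb := wt_two_leaves hU horK he1 he2 hee
    rw [hw1, hw2, hj1, hj2, abs_mul, abs_of_nonneg (hN K hKc), mul_pow]
    have hA := hNr K hKc q1 hq1c hq1
    have hB := hNr K hKc q2 hq2c hq2
    rw [hj1] at hA
    rw [hj2] at hB
    have hd1 := dsq_nonneg U (col l1)
    have hd2 := dsq_nonneg U (col l2)
    have hp : (0 : ℝ) ≤ ε ^ (K.card - 2) := by positivity
    calc N K * |wt U K|
        ≤ N K * (ε ^ (K.card - 2) * ((dsq U (col l1) + dsq U (col l2)) / 2)) :=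
          mul_le_mul_of_nonneg_left hb (hN K hKc)
      _ = N K * (ε ^ (K.card - 2) * dsq U (col l1) / 2)
            + N K * (ε ^ (K.card - 2) * dsq U (col l2) / 2) := by ring
      _ ≤ 4 ^ (K.card - 2) * N q1 * (ε ^ (K.card - 2) * dsq U (col l1) / 2)
            + 4 ^ (K.card - 2) * N q2 * (ε ^ (K.card - 2) * dsq U (col l2) / 2) :=
          add_le_add (mul_le_mul_of_nonneg_right hA (by positivity))
            (mul_le_mul_of_nonneg_right hB (by positivity))
      _ = _ := by ring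
  choose! q1 q2 h1 h2 hb using key
  refine (sum_le_sum hb).trans ?_
  rw [sum_add_distrib]
  have hx : 4 * ε / (1 / 16) * (Δ : ℝ) ≤ 1 / 4 := by linarith
  have hone : ∀ q : Finset (V × V) → Finset (V × V), (∀ K ∈ 𝒦, q K ∈ 𝒯 ∧ q K ⊆ K) →
      ∑ K ∈ 𝒦, (4 * ε) ^ (K \ q K).card * (N (q K) * wt U (q K) / 2)
        ≤ 1 / 4 * ∑ Q ∈ 𝒯, N Q * wt U Q := by
    intro q hq
    refine (charge_le Δ (by positivity) (by norm_num) (by norm_num) hx F hdeg 𝒦 𝒯 q (fun _ => 1)
      (fun Q => N Q * wt U Q / 2) ?_ ?_).trans ?_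
    · intro Q hQ
      have := mul_nonneg (hN Q (mem_filter.mp hQ).1) (wt_nonneg_cherry U hor hQ)
      positivity
    · intro K hK
      obtain ⟨hm, hs⟩ := hq K hK
      refine ⟨(h𝒦 K hK).1, hm, hs, (mem_conns.mp (mem_filter.mp hm).1).2.1, ?_⟩
      rw [card_sdiff_of_subset hs, (mem_filter.mp hm).2]
      have := (h𝒦 K hK).2.1
      omega
    · rw [mul_sum]
      refine sum_le_sum (fun Q hQ => ?_)
      obtain ⟨hQc, hQ2⟩ := mem_filter.mp hQ
      have h0 := mul_nonneg (hN Q hQc) (wt_nonneg_cherry U hor hQ)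
      have hv : (2 : ℝ) ^ (verts Q).card ≤ 2 ^ 3 := pow_le_pow_right₀ (by norm_num)
        (by have := (mem_conns.mp hQc).2.card_verts_le; omega)
      calc N Q * wt U Q / 2 * ((1 / 16 : ℝ) ^ 1 * 2 ^ (verts Q).card)
          ≤ N Q * wt U Q / 2 * ((1 / 16 : ℝ) ^ 1 * 2 ^ 3) := by gcongr
        _ = 1 / 4 * (N Q * wt U Q) := by ring
  have := add_le_add (hone q1 h1) (hone q2 h2)
  linarith

/-- Sets with one leaf. -/
lemma sum_one_leaf (hε : 0 < ε) (hU : ∀ a b, |U a b| ≤ ε) (hεΔ : ε * Δ ≤ 1 / 256)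
    (hor : Oriented col F) (hdeg : ∀ v, (starAt v F).card ≤ Δ) (hN : ∀ K ∈ conns F, 0 ≤ N K)
    (hNr : ∀ K ∈ conns F, ∀ Q ∈ conns F, Q ⊆ K → N K ≤ 4 ^ (K \ Q).card * N Q)
    (𝒦 : Finset (Finset (V × V)))
    (h𝒦 : ∀ K ∈ 𝒦, K ∈ conns F ∧ 3 ≤ K.card ∧ (leaves K).card = 1) :
    ∑ K ∈ 𝒦, |N K * wt U K|
      ≤ 1 / 8 * ∑ Q ∈ (conns F).filter (fun Q => Q.card = 2), N Q * wt U Q
        + 1 / 2 * ∑ C ∈ cycles col F, N C * wt U C := by
  classical
  set 𝒯 := (conns F).filter (fun Q => Q.card = 2) with h𝒯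
  have key : ∀ K ∈ 𝒦, ∃ q C, (q ∈ 𝒯 ∧ q ⊆ K ∧ 3 ≤ (K \ q).card) ∧
      (C ∈ cycles col F ∧ C ⊆ K) ∧
      |N K * wt U K| ≤ (8 * ε) ^ (K \ q).card * (N q * wt U q)
        + (4 * ε) ^ (K \ C).card * (N C * wt U C / (2 * 2 ^ C.card)) := by
    intro K hK
    obtain ⟨hKc, h3, hl⟩ := h𝒦 K hK
    obtain ⟨hKF, hKconn⟩ := mem_conns.mp hKc
    have horK := hor.mono hKF
    obtain ⟨l, hl'⟩ := card_eq_one.mp hl
    have hlm : l ∈ leaves K := by rw [hl']; exact mem_singleton_self _
    obtain ⟨e, he⟩ := leaf_star hlm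
    have hVK : (verts K).card ≤ K.card := by
      have := leaves_card_verts horK
      omega
    obtain ⟨C, hCK, hCm, hCe, -, D, hch⟩ := exists_cycle hor hKc hVK
    have hlC : l ∉ verts C := by
      intro h
      have hpos := edeg_pos_iff.mpr h
      have hle : edeg C l ≤ edeg K l := card_le_card (filter_subset_filter _ hCK)
      have h1 : edeg K l = 1 := (mem_filter.mp hlm).2
      obtain ⟨r, hr⟩ := hCe l
      omega
    have hem : e ∈ starAt l K := by rw [he]; exact mem_singleton_self _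
    obtain ⟨heK, hle⟩ := mem_filter.mp hem
    have hCe' : C ⊆ K.erase e := fun g hg =>
      mem_erase.mpr ⟨fun h => hlC (mem_verts.mpr ⟨g, hg, h ▸ hle⟩), hCK hg⟩
    obtain ⟨q, hq, hqm, hwq⟩ := exists_cherry U hor hKc (by omega) he
    obtain ⟨hqc, hq2⟩ := mem_filter.mp hqm
    have hj : (K \ q).card = K.card - 2 := by rw [card_sdiff_of_subset hq, hq2]
    have hL : C.card ≤ K.card - 1 := by
      have := card_le_card hCe'
      rwa [card_erase_of_mem heK] at this
    have hk := D.hk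
    have hC4 : 4 ≤ C.card := by rw [D.hcard]; omega
    refine ⟨q, C, ⟨hqm, hq, by omega⟩, ⟨hCm, hCK⟩, ?_⟩
    have hb := wt_one_leaf hε hU horK he hCe' D hch (by omega)
      (show (0 : ℝ) < 2 ^ C.card by positivity)
    rw [abs_mul, abs_of_nonneg (hN K hKc), hwq, hj]
    have hA := hNr K hKc q hqc hq
    have hB := hNr K hKc C (mem_filter.mp hCm).1 hCK
    rw [hj] at hA
    have hd := dsq_nonneg U (col l)
    have hc := wt_cycle_nonneg U D
    have hNq := hN q hqc
    have h2L : (2 : ℝ) ^ C.card ≤ 2 ^ (K.card - 2) * 2 := by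
      rw [← pow_succ]
      exact pow_le_pow_right₀ (by norm_num) (by omega)
    have h8 : (8 * ε) ^ (K.card - 2) = 4 ^ (K.card - 2) * 2 ^ (K.card - 2) * ε ^ (K.card - 2) := by
      rw [← mul_pow, ← mul_pow]; norm_num
    calc N K * |wt U K|
        ≤ N K * (2 ^ C.card / 2 * ε ^ (K.card - 2) * dsq U (col l)
            + ε ^ (K \ C).card * wt U C / (2 * 2 ^ C.card)) :=
          mul_le_mul_of_nonneg_left hb (hN K hKc)
      _ = N K * (2 ^ C.card / 2 * ε ^ (K.card - 2) * dsq U (col l))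
            + N K * (ε ^ (K \ C).card * wt U C / (2 * 2 ^ C.card)) := by ring
      _ ≤ 4 ^ (K.card - 2) * N q * (2 ^ (K.card - 2) * ε ^ (K.card - 2) * dsq U (col l))
            + 4 ^ (K \ C).card * N C * (ε ^ (K \ C).card * wt U C / (2 * 2 ^ C.card)) := by
          refine add_le_add (mul_le_mul hA ?_ (by positivity) (by positivity))
            (mul_le_mul_of_nonneg_right hB (by positivity))
          have : (2 : ℝ) ^ C.card / 2 ≤ 2 ^ (K.card - 2) := by linarith
          gcongr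
      _ = _ := by rw [h8, mul_pow]; ring
  choose! q C h1 h2 hb using key
  refine (sum_le_sum hb).trans ?_
  rw [sum_add_distrib]
  have hx1 : 8 * ε / (1 / 4) * (Δ : ℝ) ≤ 1 / 4 := by linarith
  have hx2 : 4 * ε / 1 * (Δ : ℝ) ≤ 1 / 4 := by linarith
  refine add_le_add ?_ ?_
  · refine (charge_le Δ (by positivity) (by norm_num) (by norm_num) hx1 F hdeg 𝒦 𝒯 q (fun _ => 3)
      (fun Q => N Q * wt U Q) (fun Q hQ => mul_nonneg (hN Q (mem_filter.mp hQ).1)
        (wt_nonneg_cherry U hor hQ)) ?_).trans ?_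
    · intro K hK
      obtain ⟨hm, hs, hj⟩ := h1 K hK
      exact ⟨(h𝒦 K hK).1, hm, hs, (mem_conns.mp (mem_filter.mp hm).1).2.1, hj⟩
    · rw [mul_sum]
      refine sum_le_sum (fun Q hQ => ?_)
      obtain ⟨hQc, hQ2⟩ := mem_filter.mp hQ
      have h0 := mul_nonneg (hN Q hQc) (wt_nonneg_cherry U hor hQ)
      have hv : (2 : ℝ) ^ (verts Q).card ≤ 2 ^ 3 := pow_le_pow_right₀ (by norm_num)
        (by have := (mem_conns.mp hQc).2.card_verts_le; omega)
      calc N Q * wt U Q * ((1 / 4 : ℝ) ^ 3 * 2 ^ (verts Q).card)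
          ≤ N Q * wt U Q * ((1 / 4 : ℝ) ^ 3 * 2 ^ 3) := by gcongr
        _ = 1 / 8 * (N Q * wt U Q) := by ring
  · have hnn : ∀ Q ∈ cycles col F, 0 ≤ N Q * wt U Q := fun Q hQ => by
      obtain ⟨hQc, ⟨D⟩⟩ := mem_filter.mp hQ
      exact mul_nonneg (hN Q hQc) (wt_cycle_nonneg U D)
    refine (charge_le Δ (by positivity) one_pos le_rfl hx2 F hdeg 𝒦 (cycles col F) C (fun _ => 0)
      (fun Q => N Q * wt U Q / (2 * 2 ^ Q.card)) (fun Q hQ => div_nonneg (hnn Q hQ) (by positivity))
      ?_).trans ?_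
    · intro K hK
      obtain ⟨hm, hs⟩ := h2 K hK
      exact ⟨(h𝒦 K hK).1, hm, hs, (mem_conns.mp (mem_filter.mp hm).1).2.1, Nat.zero_le _⟩
    · rw [mul_sum]
      refine sum_le_sum (fun Q hQ => le_of_eq ?_)
      obtain ⟨hQc, ⟨D⟩⟩ := mem_filter.mp hQ
      rw [(cycle_facts (hor.mono (mem_conns.mp hQc).1) D).2.1]
      field_simp

/-- Sets without leaves that are not cycles. -/
lemma sum_no_leaf (hε : 0 < ε) (hU : ∀ a b, |U a b| ≤ ε) (hεΔ : ε * Δ ≤ 1 / 256)
    (hor : Oriented col F) (hdeg : ∀ v, (starAt v F).card ≤ Δ) (hN : ∀ K ∈ conns F, 0 ≤ N K)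
    (hNr : ∀ K ∈ conns F, ∀ Q ∈ conns F, Q ⊆ K → N K ≤ 4 ^ (K \ Q).card * N Q)
    (𝒦 : Finset (Finset (V × V)))
    (h𝒦 : ∀ K ∈ 𝒦, K ∈ conns F ∧ (verts K).card < K.card) :
    ∑ K ∈ 𝒦, |N K * wt U K| ≤ 1 / 16 * ∑ C ∈ cycles col F, N C * wt U C := by
  classical
  have key : ∀ K ∈ 𝒦, ∃ C, (C ∈ cycles col F ∧ C ⊆ K ∧ C.card / 2 ≤ (K \ C).card) ∧
      |N K * wt U K| ≤ (4 * ε) ^ (K \ C).card * (N C * wt U C) := by
    intro K hK
    obtain ⟨hKc, hlt⟩ := h𝒦 K hK
    obtain ⟨hKF, hKconn⟩ := mem_conns.mp hKc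
    have horK := hor.mono hKF
    obtain ⟨C, hCK, hCm, hCe, hmin, D, hch⟩ := exists_cycle hor hKc hlt.le
    have hhalf := half_outside horK hKconn.1 hlt hCK hCe hmin
    refine ⟨C, ⟨hCm, hCK, by omega⟩, ?_⟩
    obtain ⟨v, -⟩ := hKconn.verts_nonempty
    have hb := cycle_bound hε hU horK hCK D hch v (fun _ => 1) (by simp)
    simp only [one_mul] at hb
    rw [abs_mul, abs_of_nonneg (hN K hKc), mul_pow]
    calc N K * |wt U K| ≤ N K * (ε ^ (K \ C).card * wt U C) :=
          mul_le_mul_of_nonneg_left hb (hN K hKc)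
      _ ≤ 4 ^ (K \ C).card * N C * (ε ^ (K \ C).card * wt U C) :=
          mul_le_mul_of_nonneg_right (hNr K hKc C (mem_filter.mp hCm).1 hCK)
            (mul_nonneg (by positivity) (wt_cycle_nonneg U D))
      _ = _ := by ring
  choose! C h1 hb using key
  refine (sum_le_sum hb).trans ?_
  have hx : 4 * ε / (1 / 16) * (Δ : ℝ) ≤ 1 / 4 := by linarith
  have hnn : ∀ Q ∈ cycles col F, 0 ≤ N Q * wt U Q := fun Q hQ => by
    obtain ⟨hQc, ⟨D⟩⟩ := mem_filter.mp hQ
    exact mul_nonneg (hN Q hQc) (wt_cycle_nonneg U D)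
  refine (charge_le Δ (by positivity) (by norm_num) (by norm_num) hx F hdeg 𝒦 (cycles col F) C
    (fun Q => Q.card / 2) (fun Q => N Q * wt U Q) hnn ?_).trans ?_
  · intro K hK
    obtain ⟨hm, hs, hj⟩ := h1 K hK
    exact ⟨(h𝒦 K hK).1, hm, hs, (mem_conns.mp (mem_filter.mp hm).1).2.1, hj⟩
  · rw [mul_sum]
    refine sum_le_sum (fun Q hQ => ?_)
    obtain ⟨hQc, ⟨D⟩⟩ := mem_filter.mp hQ
    rw [(cycle_facts (hor.mono (mem_conns.mp hQc).1) D).2.1, D.hcard,
      Nat.mul_div_cancel_left _ (by norm_num : 0 < 2)]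
    have h : (1 / 16 : ℝ) ^ D.k * 2 ^ (2 * D.k) ≤ 1 / 16 := by
      rw [pow_mul, ← mul_pow]
      calc ((1 / 16 : ℝ) * 2 ^ 2) ^ D.k ≤ ((1 / 16 : ℝ) * 2 ^ 2) ^ 2 :=
            pow_le_pow_of_le_one (by norm_num) (by norm_num) D.hk
        _ = 1 / 16 := by norm_num
    calc N Q * wt U Q * ((1 / 16 : ℝ) ^ D.k * 2 ^ (2 * D.k))
        ≤ N Q * wt U Q * (1 / 16) := mul_le_mul_of_nonneg_left h (hnn Q hQ)
      _ = _ := by ring

/-- The weighted sum over connected sets is nonnegative. -/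
lemma main_nonneg (hε : 0 < ε) (hU : ∀ a b, |U a b| ≤ ε) (hU0 : (𝔼 a, 𝔼 b, U a b) = 0)
    (hεΔ : ε * Δ ≤ 1 / 256) (hor : Oriented col F) (hdeg : ∀ v, (starAt v F).card ≤ Δ)
    (hN : ∀ K ∈ conns F, 0 ≤ N K)
    (hNr : ∀ K ∈ conns F, ∀ Q ∈ conns F, Q ⊆ K → N K ≤ 4 ^ (K \ Q).card * N Q) :
    0 ≤ ∑ K ∈ conns F, N K * wt U K := by
  classical
  have hI := sum_two_leaves hε hU hεΔ hor hdeg hN hNr
    ((conns F).filter (fun K => 3 ≤ K.card ∧ 2 ≤ (leaves K).card))
    (fun K hK => ⟨(mem_filter.mp hK).1, (mem_filter.mp hK).2⟩)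
  have hII := sum_one_leaf hε hU hεΔ hor hdeg hN hNr
    ((conns F).filter (fun K => 3 ≤ K.card ∧ (leaves K).card = 1))
    (fun K hK => ⟨(mem_filter.mp hK).1, (mem_filter.mp hK).2⟩)
  have h0 := sum_no_leaf hε hU hεΔ hor hdeg hN hNr
    ((conns F).filter (fun K => (leaves K).card = 0 ∧ (verts K).card < K.card))
    (fun K hK => ⟨(mem_filter.mp hK).1, (mem_filter.mp hK).2.2⟩)
  have hQ0 : 0 ≤ ∑ Q ∈ (conns F).filter (fun Q => Q.card = 2), N Q * wt U Q :=
    sum_nonneg (fun Q hQ => mul_nonneg (hN Q (mem_filter.mp hQ).1) (wt_nonneg_cherry U hor hQ))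
  have hC0 : 0 ≤ ∑ Q ∈ cycles col F, N Q * wt U Q := sum_nonneg (fun Q hQ => by
    obtain ⟨hQc, ⟨D⟩⟩ := mem_filter.mp hQ
    exact mul_nonneg (hN Q hQc) (wt_cycle_nonneg U D))
  have hsplit : (∑ Q ∈ (conns F).filter (fun Q => Q.card = 2), N Q * wt U Q)
      + (∑ Q ∈ cycles col F, N Q * wt U Q)
      - (∑ K ∈ (conns F).filter (fun K => 3 ≤ K.card ∧ 2 ≤ (leaves K).card), |N K * wt U K|)
      - (∑ K ∈ (conns F).filter (fun K => 3 ≤ K.card ∧ (leaves K).card = 1), |N K * wt U K|)
      - (∑ K ∈ (conns F).filter (fun K => (leaves K).card = 0 ∧ (verts K).card < K.card),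
          |N K * wt U K|)
      ≤ ∑ K ∈ conns F, N K * wt U K := by
    unfold cycles
    simp only [sum_filter, ← sum_sub_distrib, ← sum_add_distrib]
    refine sum_le_sum (fun K hK => ?_)
    obtain ⟨hKF, hKconn⟩ := mem_conns.mp hK
    have horK := hor.mono hKF
    have hpos : 0 < K.card := card_pos.mpr hKconn.1
    have hcyc : Nonempty (CycleData col K) →
        4 ≤ K.card ∧ (leaves K).card = 0 ∧ ¬ (verts K).card < K.card := by
      rintro ⟨D⟩
      obtain ⟨-, heq, hdeg2⟩ := cycle_facts horK D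
      have := D.hk
      refine ⟨by rw [D.hcard]; omega, card_eq_zero.mpr ?_, by omega⟩
      exact filter_false_of_mem (fun v hv h => by rw [hdeg2 v hv] at h; omega)
    have hsmall : K.card = 1 → N K * wt U K = 0 := by
      intro h1
      obtain ⟨e, he⟩ := card_eq_one.mp h1
      subst he
      rw [wt_single U hU0 horK, mul_zero]
    have hlv := leaves_card_verts horK
    have hv1 := hKconn.card_verts_le
    have habs := neg_abs_le (N K * wt U K)
    have habs0 := abs_nonneg (N K * wt U K)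
    by_cases hcy : Nonempty (CycleData col K)
    · obtain ⟨h4, hl0, hnlt⟩ := hcyc hcy
      simp [hcy, hl0, hnlt, show ¬ K.card = 2 by omega]
    · rcases lt_trichotomy K.card 2 with h | h | h
      · have h1 : K.card = 1 := by omega
        simp [hcy, h1, hsmall h1, abs_zero]
      · have hle : ¬ (verts K).card ≤ K.card := by
          intro hle
          obtain ⟨C, hCK, -, -, -, D, -⟩ := exists_cycle hor hK hle
          have := card_le_card hCK
          have := D.hcard
          have := D.hk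
          omega
        simp [hcy, h, show ¬ (verts K).card < 2 by omega]
      · rcases Nat.lt_trichotomy (leaves K).card 1 with hl | hl | hl
        · have hl0 : (leaves K).card = 0 := by omega
          have hlt : (verts K).card < K.card := by
            by_contra hnlt
            apply hcy
            obtain ⟨C, hCK, -, hCe, -, D, -⟩ := exists_cycle hor hK (by omega)
            suffices hCKe : C = K from hCKe ▸ ⟨D⟩
            refine hKconn.2 C ⟨hCK, fun a ha g hg => ?_⟩ (card_pos.mp (by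
              have := D.hk; rw [D.hcard]; omega))
            rw [Finset.disjoint_left]
            intro z hza hzg
            obtain ⟨hgK, hgC⟩ := mem_sdiff.mp hg
            have hall : ∀ v ∈ verts K, 2 ≤ edeg K v := by
              intro v hv
              have h1 := edeg_pos_iff.mpr hv
              by_contra h2
              have : v ∈ leaves K := mem_filter.mpr ⟨hv, by omega⟩
              rw [card_eq_zero.mp hl0] at this
              simp at this
            have hzK : z ∈ verts K := mem_verts.mpr ⟨g, hgK, hzg⟩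
            have heq : ∑ _v ∈ verts K, 2 = ∑ v ∈ verts K, edeg K v := by
              rw [sum_edeg horK (Subset.refl _), sum_const, smul_eq_mul]
              omega
            have hd2 := (Finset.sum_eq_sum_iff_of_le hall).mp heq z hzK
            have hC1 := edeg_pos_iff.mpr (mem_verts.mpr ⟨a, ha, hza⟩)
            obtain ⟨r, hr⟩ := hCe z
            have hss : starAt z C = starAt z K :=
              eq_of_subset_of_card_le (filter_subset_filter _ hCK)
                (by unfold edeg at hd2 hC1 hr; omega)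
            have : g ∈ starAt z C := hss ▸ mem_filter.mpr ⟨hgK, hzg⟩
            exact hgC (mem_filter.mp this).1
          simp [hcy, hl0, hlt, show ¬ K.card = 2 by omega, -abs_mul]
          linarith
        · simp [hcy, hl, show ¬ K.card = 2 by omega, show 3 ≤ K.card by omega, -abs_mul]
          linarith
        · simp [hcy, show ¬ K.card = 2 by omega, show 3 ≤ K.card by omega,
            show 2 ≤ (leaves K).card by omega, show ¬ (leaves K).card = 1 by omega,
            show ¬ leaves K = ∅ by intro h'; simp [h'] at hl, -abs_mul]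
          linarith
  linarith

end

/-- The finite form: a small mean zero perturbation does not lower the average. -/
theorem finite_ge_one {U : Ω → Ω → ℝ} {ε : ℝ} {Δ : ℕ} (hε : 0 < ε) (hεΔ : ε * Δ ≤ 1 / 256)
    (hU : ∀ a b, |U a b| ≤ ε) (hU0 : (𝔼 a, 𝔼 b, U a b) = 0) {col : V → Bool}
    {E : Finset (V × V)} (hor : Oriented col E) (hdeg : ∀ v, (starAt v E).card ≤ Δ) :
    1 ≤ 𝔼 x : V → Ω, ∏ e ∈ E, (1 + U (x e.1) (x e.2)) := by
  classical
  rw [← Z_univ]
  suffices h : ∀ n, ∀ T : Finset V, T.card = n →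
      1 ≤ Z U E T ∧ ∀ w ∈ T, Z U E (T.erase w) ≤ 2 * Z U E T from (h _ univ rfl).1
  intro n
  induction n using Nat.strong_induction_on with
  | _ n ih =>
  intro T hT
  rcases T.eq_empty_or_nonempty with rfl | hTne
  · simp [Z_empty]
  have hpos : ∀ A : Finset V, A.card < n → 0 ≤ Z U E A := fun A hA =>
    zero_le_one.trans (ih _ hA A rfl).1
  have hstep : ∀ A : Finset V, A.card < n → ∀ w ∈ A, Z U E (A.erase w) ≤ 2 * Z U E A :=
    fun A hA => (ih _ hA A rfl).2
  have hdegT : ∀ v, (starAt v (edgesIn E T)).card ≤ Δ := fun v =>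
    (card_le_card (filter_subset_filter _ (filter_subset _ _))).trans (hdeg v)
  have herase : ∀ v ∈ T, (T.erase v).card < n := fun v hv => hT ▸ card_erase_lt_of_mem hv
  have hlt : ∀ K ∈ conns (edgesIn E T), (T \ verts K).card < n := by
    intro K hK
    obtain ⟨hKs, hKc⟩ := mem_conns.mp hK
    rw [← hT]
    exact card_lt_card (sdiff_ssubset (verts_subset_of_edgesIn hKs) hKc.verts_nonempty)
  have hhalf : ∀ v ∈ T, Z U E (T.erase v) ≤ 2 * Z U E T := by
    intro v hv
    have hs := Z_step U E T v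
    have hbound : |Z U E T - Z U E (T.erase v)| ≤ 1 / 2 * Z U E (T.erase v) := by
      rw [hs]
      calc |∑ K ∈ conns (edgesIn E T) with v ∈ verts K, wt U K * Z U E (T \ verts K)|
          ≤ ∑ K ∈ conns (edgesIn E T) with v ∈ verts K, |wt U K * Z U E (T \ verts K)| :=
            abs_sum_le_sum_abs _ _
        _ ≤ ∑ K ∈ conns (edgesIn E T) with v ∈ verts K,
              (2 * ε) ^ K.card * Z U E (T.erase v) := by
            refine sum_le_sum (fun K hK => ?_)
            obtain ⟨hKm, hvK⟩ := mem_filter.mp hK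
            obtain ⟨hKs, hKc⟩ := mem_conns.mp hKm
            have hsub : T \ verts K ⊆ T.erase v := by
              intro z hz
              obtain ⟨hz1, hz2⟩ := mem_sdiff.mp hz
              exact mem_erase.mpr ⟨fun h => hz2 (h ▸ hvK), hz1⟩
            have hch := Z_chain hstep _ _ (T.erase v) hsub (herase v hv) rfl
            have hm : (T.erase v \ (T \ verts K)).card ≤ K.card := by
              refine le_trans (card_le_card (fun z hz => ?_)) (att_card_verts (hKc.att_vertex hvK))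
              simp only [mem_sdiff, mem_erase, not_and, not_not] at hz
              exact mem_sdiff.mpr ⟨hz.2 hz.1.2, by simp [hz.1.1]⟩
            have hZ0 := hpos _ (herase v hv)
            rw [abs_mul, abs_of_nonneg (hpos _ (hlt K hKm)), mul_pow]
            calc |wt U K| * Z U E (T \ verts K)
                ≤ ε ^ K.card * (2 ^ (T.erase v \ (T \ verts K)).card * Z U E (T.erase v)) :=
                  mul_le_mul (abs_wt_le hU K) hch (hpos _ (hlt K hKm)) (by positivity)
              _ ≤ ε ^ K.card * (2 ^ K.card * Z U E (T.erase v)) := by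
                  gcongr
                  norm_num
              _ = _ := by ring
        _ = (∑ K ∈ conns (edgesIn E T) with v ∈ verts K, (2 * ε) ^ K.card)
              * Z U E (T.erase v) := (sum_mul _ _ _).symm
        _ ≤ 1 / 2 * Z U E (T.erase v) := by
            refine mul_le_mul_of_nonneg_right ?_ (hpos _ (herase v hv))
            have hx : 2 * ε / (1 / 4) * (Δ : ℝ) ≤ 1 / 4 := by linarith
            refine le_trans ?_ (le_of_le_of_eq (attached_tail_le Δ (by positivity) (by norm_num)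
              (by norm_num) hx (edgesIn E T) hdegT {v} 1)
              (by norm_num : (1 / 4 : ℝ) ^ 1 * 2 ^ ({v} : Finset V).card = 1 / 2))
            refine sum_le_sum_of_subset_of_nonneg (fun K hK => ?_) (fun _ _ _ => by positivity)
            obtain ⟨hKm, hvK⟩ := mem_filter.mp hK
            obtain ⟨hKs, hKc⟩ := mem_conns.mp hKm
            exact mem_filter.mpr ⟨mem_powerset.mpr hKs, hKc.att_vertex hvK, card_pos.mpr hKc.1⟩
    have := (abs_le.mp hbound).1
    linarith
  refine ⟨?_, hhalf⟩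
  let N : Finset (V × V) → ℝ := fun K => (verts K).card * Z U E (T \ verts K)
  have hN : ∀ K ∈ conns (edgesIn E T), 0 ≤ N K := fun K hK =>
    mul_nonneg (Nat.cast_nonneg _) (hpos _ (hlt K hK))
  have hNr : ∀ K ∈ conns (edgesIn E T), ∀ Q ∈ conns (edgesIn E T), Q ⊆ K →
      N K ≤ 4 ^ (K \ Q).card * N Q := by
    intro K hK Q hQ hQK
    obtain ⟨hKs, hKc⟩ := mem_conns.mp hK
    obtain ⟨hQs, hQc⟩ := mem_conns.mp hQ
    have hV : verts K \ verts Q ⊆ verts (K \ Q) \ verts Q := by
      intro z hz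
      obtain ⟨hz1, hz2⟩ := mem_sdiff.mp hz
      obtain ⟨g, hg, hzg⟩ := mem_verts.mp hz1
      exact mem_sdiff.mpr ⟨mem_verts.mpr ⟨g, mem_sdiff.mpr
        ⟨hg, fun h => hz2 (mem_verts.mpr ⟨g, h, hzg⟩)⟩, hzg⟩, hz2⟩
    have hj : (verts K \ verts Q).card ≤ (K \ Q).card :=
      (card_le_card hV).trans (att_card_verts (hKc.att hQK hQc.1))
    have hc1 := card_sdiff_add_card_eq_card (verts_mono hQK)
    have hc2 : 0 < (verts Q).card := card_pos.mpr hQc.verts_nonempty
    have hc3 : (K \ Q).card < 2 ^ (K \ Q).card := Nat.lt_two_pow_self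
    have hcN : (verts K).card ≤ 2 ^ (K \ Q).card * (verts Q).card := by
      have : (K \ Q).card * 1 + 1 * (verts Q).card
          ≤ (2 ^ (K \ Q).card - 1) * (verts Q).card + 1 * (verts Q).card := by
        gcongr <;> omega
      rw [← Nat.add_mul, Nat.sub_add_cancel (by omega)] at this
      omega
    have hsub : T \ verts K ⊆ T \ verts Q := sdiff_subset_sdiff (Subset.refl _) (verts_mono hQK)
    have hch := Z_chain hstep _ _ (T \ verts Q) hsub (hlt Q hQ) rfl
    have hm : ((T \ verts Q) \ (T \ verts K)).card ≤ (K \ Q).card := by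
      refine le_trans (card_le_card (fun z hz => ?_)) hj
      simp only [mem_sdiff, not_and, not_not] at hz ⊢
      exact ⟨hz.2 hz.1.1, hz.1.2⟩
    have hZQ := hpos _ (hlt Q hQ)
    have h4 : (4 : ℝ) ^ (K \ Q).card = 2 ^ (K \ Q).card * 2 ^ (K \ Q).card := by
      rw [← mul_pow]; norm_num
    calc N K ≤ ((2 : ℝ) ^ (K \ Q).card * (verts Q).card)
          * (2 ^ (K \ Q).card * Z U E (T \ verts Q)) := by
          refine mul_le_mul (by exact_mod_cast hcN) ?_ (hpos _ (hlt K hK)) (by positivity)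
          refine hch.trans ?_
          gcongr
          norm_num
      _ = 4 ^ (K \ Q).card * N Q := by simp only [N, h4]; ring
  have hsum : (∑ v ∈ T, (Z U E T - Z U E (T.erase v)))
      = ∑ K ∈ conns (edgesIn E T), N K * wt U K := by
    simp only [Z_step, sum_filter]
    rw [Finset.sum_comm]
    refine sum_congr rfl (fun K hK => ?_)
    rw [← sum_filter, sum_const, filter_mem_eq_inter,
      inter_eq_right.mpr (verts_subset_of_edgesIn (mem_conns.mp hK).1), nsmul_eq_mul]
    simp only [N]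
    ring
  have horT : Oriented col (edgesIn E T) := hor.mono (filter_subset _ E)
  have h0 := main_nonneg hε hU hU0 hεΔ horT hdegT hN hNr
  rw [← hsum] at h0
  have hz : ∑ v ∈ T, (0 : ℝ) ≤ ∑ v ∈ T, (Z U E T - Z U E (T.erase v)) := by simpa using h0
  obtain ⟨v, hv, hle⟩ := exists_le_of_sum_le hTne hz
  have := (ih _ (herase v hv) (T.erase v) rfl).1
  linarith

end Vale.Agent.P050
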