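import Mathlib
import Vale.Agent.P050.Main

/-!
From finite sampling to kernels on a probability space.
-/

open Finset MeasureTheory
open scoped BigOperators

set_option linter.unusedSectionVars false

namespace Vale.Agent.P050

variable {V Ω : Type*} [Fintype V] [DecidableEq V] [MeasurableSpace Ω]
  {μ : Measure Ω} [IsProbabilityMeasure μ]

/-- Independent coordinates along an injection. -/
lemma mp_comp_injective {ι κ : Type*} [Fintype ι] [Fintype κ] (f : ι → κ)
    (hf : Function.Injective f) :
    MeasurePreserving (fun y : κ → Ω => y ∘ f)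
      (Measure.pi fun _ => μ) (Measure.pi fun _ => μ) := by
  classical
  have hm : Measurable (fun y : κ → Ω => y ∘ f) :=
    measurable_pi_iff.mpr (fun i => measurable_pi_apply (f i))
  refine ⟨hm, (Measure.pi_eq (fun s hs => ?_)).symm⟩
  rw [Measure.map_apply hm (MeasurableSet.univ_pi hs)]
  have hpre : (fun y : κ → Ω => y ∘ f) ⁻¹' (Set.univ.pi s)
      = Set.univ.pi (Function.extend f s (fun _ => Set.univ)) := by
    ext y
    simp only [Set.mem_preimage, Set.mem_univ_pi, Function.comp_apply]
    constructor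
    · intro h k
      by_cases hk : ∃ i, f i = k
      · obtain ⟨i, rfl⟩ := hk
        rw [hf.extend_apply]; exact h i
      · rw [Function.extend_apply' _ _ _ hk]; exact Set.mem_univ _
    · intro h i
      have := h (f i)
      rwa [hf.extend_apply] at this
  rw [hpre, Measure.pi_pi]
  rw [← Finset.prod_subset (Finset.subset_univ (Finset.univ.image f)), Finset.prod_image hf.injOn]
  · exact Finset.prod_congr rfl (fun i _ => by rw [hf.extend_apply])
  · intro k _ hk
    rw [Function.extend_apply', measure_univ]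
    rintro ⟨i, rfl⟩
    exact hk (mem_image_of_mem _ (mem_univ i))

lemma mp_pair {κ : Type*} [Fintype κ] {i j : κ} (h : i ≠ j) :
    MeasurePreserving (fun y : κ → Ω => (y i, y j)) (Measure.pi fun _ => μ) (μ.prod μ) := by
  have hinj : Function.Injective ![i, j] := by
    intro a b hab
    fin_cases a <;> fin_cases b <;> simp_all
  exact (measurePreserving_finTwoArrow μ).comp (mp_comp_injective ![i, j] hinj)

lemma integrable_of_abs_le {α : Type*} [MeasurableSpace α] {ν : Measure α} [IsFiniteMeasure ν]
    {f : α → ℝ} (hf : Measurable f) (C : ℝ) (h : ∀ x, |f x| ≤ C) : Integrable f ν :=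
  Integrable.of_bound hf.aestronglyMeasurable C (Filter.Eventually.of_forall h)

/-- The kernel form with values in a band around one. -/
theorem kernel_ge_one {W : Ω → Ω → ℝ} (hWm : Measurable (Function.uncurry W)) {Δ : ℕ} (hΔ : 1 ≤ Δ)
    (hW : ∀ a b, |W a b - 1| ≤ 1 / (600 * Δ)) (hW1 : (∫ z, W z.1 z.2 ∂(μ.prod μ)) = 1)
    {col : V → Bool} {E : Finset (V × V)} (hor : Oriented col E)
    (hdeg : ∀ v, (starAt v E).card ≤ Δ) :
    1 ≤ ∫ x : V → Ω, ∏ e ∈ E, W (x e.1) (x e.2) ∂(Measure.pi fun _ => μ) := by
  classical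
  set ε : ℝ := 1 / (600 * Δ) with hεdef
  have hΔr : (1 : ℝ) ≤ Δ := by exact_mod_cast hΔ
  have hε0 : 0 < ε := by positivity
  have hεle : ε ≤ 1 / 600 := by
    rw [hεdef]
    exact one_div_le_one_div_of_le (by norm_num) (by linarith)
  have hεΔ : ε * Δ = 1 / 600 := by rw [hεdef]; field_simp
  have hlo : ∀ a b, 1 - ε ≤ W a b := fun a b => by linarith [(abs_le.mp (hW a b)).1]
  have hhi : ∀ a b, W a b ≤ 1 + ε := fun a b => by linarith [(abs_le.mp (hW a b)).2]
  have hnn : ∀ a b, 0 ≤ W a b := fun a b => by linarith [hlo a b]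
  set m := E.card with hm
  set t := ∫ x : V → Ω, ∏ e ∈ E, W (x e.1) (x e.2) ∂(Measure.pi fun _ => μ) with ht
  have ht0 : 0 ≤ t := integral_nonneg (fun x => prod_nonneg (fun e _ => hnn _ _))
  set B : ℝ := (1 + ε) ^ m with hB
  suffices h : ∀ n : ℕ, 0 < n → 1 - t ≤ (m * ε + (Fintype.card V : ℝ) ^ 2 * B) / n by
    by_contra hlt
    push Not at hlt
    obtain ⟨n, hn⟩ := exists_nat_gt ((m * ε + (Fintype.card V : ℝ) ^ 2 * B) / (1 - t))
    have hpos : 0 ≤ (m * ε + (Fintype.card V : ℝ) ^ 2 * B) / (1 - t) :=
      div_nonneg (by positivity) (by linarith)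
    have hn0 : 0 < n := by exact_mod_cast lt_of_le_of_lt hpos hn
    have h' := h n hn0
    rw [div_lt_iff₀ (by linarith)] at hn
    rw [le_div_iff₀ (by exact_mod_cast hn0)] at h'
    nlinarith
  intro n hn
  have : NeZero n := ⟨hn.ne'⟩
  set ν : Measure (Fin n → Ω) := Measure.pi fun _ => μ with hν
  let pn : (Fin n → Ω) → ℝ := fun y => 𝔼 i, 𝔼 j, W (y i) (y j)
  let tn : (Fin n → Ω) → ℝ := fun y => 𝔼 z : V → Fin n, ∏ e ∈ E, W (y (z e.1)) (y (z e.2))
  have hmWij : ∀ i j : Fin n, Measurable (fun y : Fin n → Ω => W (y i) (y j)) := fun i j => by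
    have h : Measurable (fun y : Fin n → Ω => (y i, y j)) := by fun_prop
    exact hWm.comp h
  have hmV : ∀ a b : V, Measurable (fun x : V → Ω => W (x a) (x b)) := fun a b => by
    have h : Measurable (fun x : V → Ω => (x a, x b)) := by fun_prop
    exact hWm.comp h
  have hintW : ∀ i j : Fin n, Integrable (fun y : Fin n → Ω => W (y i) (y j)) ν := fun i j =>
    integrable_of_abs_le (hmWij i j) (1 + ε) (fun y => by
      rw [abs_of_nonneg (hnn _ _)]; exact hhi _ _)
  have hintP : ∀ z : V → Fin n,
      Integrable (fun y : Fin n → Ω => ∏ e ∈ E, W (y (z e.1)) (y (z e.2))) ν := fun z =>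
    integrable_of_abs_le (Finset.measurable_prod _ (fun e _ => hmWij _ _)) B (fun y => by
      rw [abs_of_nonneg (prod_nonneg (fun e _ => hnn _ _)), hB, hm, ← prod_const]
      exact prod_le_prod (fun e _ => hnn _ _) (fun e _ => hhi _ _))
  have hpoint : ∀ y, 1 + m * (pn y - 1) ≤ tn y := by
    intro y
    have hp1 : 1 - ε ≤ pn y :=
      Finset.le_expect univ_nonempty
        (fun i _ => Finset.le_expect univ_nonempty (fun j _ => hlo _ _))
    have hp2 : pn y ≤ 1 + ε :=
      Finset.expect_le univ_nonempty
        (fun i _ => Finset.expect_le univ_nonempty (fun j _ => hhi _ _))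
    have hp0 : 0 < pn y := by linarith
    let U : Fin n → Fin n → ℝ := fun i j => W (y i) (y j) / pn y - 1
    have hU : ∀ i j, |U i j| ≤ 1 / (256 * Δ) := by
      intro i j
      have h1 : |W (y i) (y j) - pn y| ≤ 2 * ε := by
        rw [abs_le]
        constructor <;> linarith [hlo (y i) (y j), hhi (y i) (y j)]
      have h2 : U i j = (W (y i) (y j) - pn y) / pn y := by
        simp only [U]; field_simp
      rw [h2, abs_div, abs_of_pos hp0, div_le_iff₀ hp0]
      refine h1.trans ?_
      have h3 : 2 * ε = 1 / (256 * Δ) * (512 / 600) := by rw [hεdef]; field_simp; ring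
      rw [h3]
      exact mul_le_mul_of_nonneg_left (by linarith) (by positivity)
    have hU0 : (𝔼 i, 𝔼 j, U i j) = 0 := by
      simp only [U, Finset.expect_sub_distrib, ← Finset.expect_div,
        Finset.expect_const univ_nonempty]
      rw [show (𝔼 i, 𝔼 j, W (y i) (y j)) = pn y from rfl, div_self hp0.ne', sub_self]
    have h := finite_ge_one (V := V) (ε := 1 / (256 * Δ)) (Δ := Δ) (by positivity)
      (le_of_eq (by field_simp)) hU hU0 hor hdeg
    have heq : ∀ z : V → Fin n, ∏ e ∈ E, (1 + U (z e.1) (z e.2))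
        = (∏ e ∈ E, W (y (z e.1)) (y (z e.2))) / pn y ^ m := by
      intro z
      simp only [U, add_sub_cancel, prod_div_distrib, prod_const, hm]
    simp only [heq, ← Finset.expect_div] at h
    rw [le_div_iff₀ (by positivity), one_mul] at h
    have hb : 1 + m * (pn y - 1) ≤ pn y ^ m := by
      simpa using one_add_mul_le_pow (show -2 ≤ pn y - 1 by linarith) m
    exact hb.trans h
  have hintpn : Integrable pn ν := by
    simp only [pn, Fintype.expect_eq_sum_div_card]
    exact (integrable_finsetSum _ (fun i _ =>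
      (integrable_finsetSum _ (fun j _ => hintW i j)).div_const _)).div_const _
  have hinttn : Integrable tn ν := by
    simp only [tn, Fintype.expect_eq_sum_div_card]
    exact (integrable_finsetSum _ (fun z _ => hintP z)).div_const _
  have hint : ∫ y, (1 + m * (pn y - 1)) ∂ν ≤ ∫ y, tn y ∂ν :=
    integral_mono ((integrable_const 1).add ((hintpn.sub (integrable_const 1)).const_mul _))
      hinttn hpoint
  have hI1 : ∫ y, (1 + (m : ℝ) * (pn y - 1)) ∂ν = 1 + m * ((∫ y, pn y ∂ν) - 1) := by
    have hg : Integrable (fun y => (m : ℝ) * (pn y - 1)) ν :=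
      (hintpn.sub (integrable_const 1)).const_mul _
    rw [integral_add (integrable_const 1) hg,
      integral_const_mul, integral_sub hintpn (integrable_const 1), integral_const]
    simp
  have hIp : 1 - ε / n ≤ ∫ y, pn y ∂ν := by
    have : ∫ y, pn y ∂ν = 𝔼 i, 𝔼 j, ∫ y, W (y i) (y j) ∂ν := by
      simp only [pn, Fintype.expect_eq_sum_div_card]
      rw [integral_div, integral_finsetSum _ (fun i _ =>
        (integrable_finsetSum _ (fun j _ => hintW i j)).div_const _)]
      congr 1
      refine sum_congr rfl (fun i _ => ?_)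
      rw [integral_div, integral_finsetSum _ (fun j _ => hintW i j)]
    rw [this]
    refine Finset.le_expect univ_nonempty (fun i _ => ?_)
    have hij : ∀ j, 1 - (if j = i then ε else 0) ≤ ∫ y, W (y i) (y j) ∂ν := by
      intro j
      split_ifs with h
      · have := integral_mono (μ := ν) (integrable_const (1 - ε)) (hintW i j) (fun y => hlo _ _)
        simpa using this
      · rw [sub_zero]
        have hmp := mp_pair (μ := μ) (κ := Fin n) (fun h' => h h'.symm : i ≠ j)
        have hm2 : Measurable (fun z : Ω × Ω => W z.1 z.2) := hWm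
        rw [← hW1, ← hmp.map_eq, integral_map hmp.measurable.aemeasurable
          hm2.aestronglyMeasurable]
    refine le_trans (le_of_eq ?_) (Finset.expect_le_expect (fun j _ => hij j))
    rw [Finset.expect_sub_distrib, Finset.expect_const univ_nonempty,
      Fintype.expect_eq_sum_div_card, Finset.sum_ite_eq', if_pos (mem_univ _), Fintype.card_fin]
  have hIt : ∫ y, tn y ∂ν ≤ t + (Fintype.card V : ℝ) ^ 2 * B / n := by
    have : ∫ y, tn y ∂ν
        = 𝔼 z : V → Fin n, ∫ y, ∏ e ∈ E, W (y (z e.1)) (y (z e.2)) ∂ν := by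
      simp only [tn, Fintype.expect_eq_sum_div_card]
      rw [integral_div, integral_finsetSum _ (fun z _ => hintP z)]
    rw [this]
    have hz : ∀ z : V → Fin n, ∫ y, ∏ e ∈ E, W (y (z e.1)) (y (z e.2)) ∂ν
        ≤ t + B * ∑ p ∈ (univ : Finset (V × V)) with p.1 ≠ p.2,
            if z p.1 = z p.2 then (1 : ℝ) else 0 := by
      intro z
      by_cases hzi : Function.Injective z
      · refine le_add_of_le_of_nonneg (le_of_eq ?_)
          (mul_nonneg (by positivity) (sum_nonneg (fun _ _ => by split_ifs <;> norm_num)))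
        have hmp := mp_comp_injective (μ := μ) z hzi
        rw [ht, ← hmp.map_eq, integral_map hmp.measurable.aemeasurable
          (Finset.measurable_prod _ (fun e _ => hmV e.1 e.2)).aestronglyMeasurable]
        rfl
      · rw [Function.not_injective_iff] at hzi
        obtain ⟨a, b, hab, hne⟩ := hzi
        have h1 : (1 : ℝ) ≤ ∑ p ∈ (univ : Finset (V × V)) with p.1 ≠ p.2,
            if z p.1 = z p.2 then (1 : ℝ) else 0 := by
          refine le_trans ?_ (single_le_sum (a := (a, b))
            (fun p _ => by split_ifs <;> norm_num) (mem_filter.mpr ⟨mem_univ _, hne⟩))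
          simp [hab]
        have h2 : ∫ y, ∏ e ∈ E, W (y (z e.1)) (y (z e.2)) ∂ν ≤ B := by
          have := integral_mono (μ := ν) (hintP z) (integrable_const B) (fun y => by
            show ∏ e ∈ E, W (y (z e.1)) (y (z e.2)) ≤ B
            rw [hB, hm, ← prod_const]
            exact prod_le_prod (fun e _ => hnn _ _) (fun e _ => hhi _ _))
          simpa using this
        have hB0 : 0 ≤ B := by positivity
        nlinarith
    refine (Finset.expect_le_expect (fun z _ => hz z)).trans ?_
    rw [Finset.expect_add_distrib, Finset.expect_const univ_nonempty, ← Finset.mul_expect,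
      Finset.expect_sum_comm]
    have hpairs : ∀ p ∈ (univ : Finset (V × V)).filter (fun p => p.1 ≠ p.2),
        (𝔼 z : V → Fin n, if z p.1 = z p.2 then (1 : ℝ) else 0) = 1 / n := by
      intro p hp
      have hne : p.1 ≠ p.2 := (mem_filter.mp hp).2
      rw [expect_update p.1]
      simp [Function.update_of_ne hne.symm, Fintype.expect_eq_sum_div_card]
    rw [Finset.sum_congr rfl hpairs, sum_const, nsmul_eq_mul]
    have hc : (((univ : Finset (V × V)).filter (fun p => p.1 ≠ p.2)).card : ℝ)
        ≤ (Fintype.card V : ℝ) ^ 2 := by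
      rw [sq]
      exact_mod_cast (card_filter_le _ _).trans_eq (by simp)
    have hB0 : 0 ≤ B := by positivity
    have hn' : (0 : ℝ) ≤ 1 / n := by positivity
    calc t + B * ((((univ : Finset (V × V)).filter (fun p => p.1 ≠ p.2)).card : ℝ) * (1 / n))
        ≤ t + B * ((Fintype.card V : ℝ) ^ 2 * (1 / n)) := by gcongr
      _ = _ := by ring
  rw [hI1] at hint
  have hm0 : (0 : ℝ) ≤ m := Nat.cast_nonneg _
  have : (m : ℝ) * ((1 - ε / n) - 1) ≤ m * ((∫ y, pn y ∂ν) - 1) :=
    mul_le_mul_of_nonneg_left (by linarith) hm0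
  rw [add_div, mul_div_assoc]
  linarith

end Vale.Agent.P050
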